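import Vale.Agent.P048.Full.SClash.Sets

/-! # Cliques on at least `m - 3` vertices: the second layer is no clique -/

namespace Vale.Agent.P048.Full.SClash

open Finset

variable {V : Type} [Fintype V] {G : SimpleGraph V} {m q A : ℕ} {Q : Finset V} {D : Four G Q}
  {i : Fin 4}

omit [Fintype V] in
theorem nb_empty (x : V) : (nb G (∅ : Finset V) x).card = 0 := by
  classical simp [nb]

/-- Outside neighbours see at most one other. -/
theorem pcard_le_one [DecidableEq V] (T : Top G m A q Q) (D : Four G Q) (hm : 5 ≤ m)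
    (hq : m ≤ q + 3) (i : Fin 4) : (nb G (Finset.univ.image D.p) (D.p i)).card ≤ 1 := by
  by_contra h
  obtain ⟨u, hu, v, hv, huv⟩ :=
    Finset.one_lt_card.1 (show 1 < (nb G (Finset.univ.image D.p) (D.p i)).card by omega)
  simp only [mem_nb, Finset.mem_image, Finset.mem_univ, true_and] at hu hv
  obtain ⟨⟨k, rfl⟩, ek⟩ := hu
  obtain ⟨⟨l, rfl⟩, el⟩ := hv
  exact D.no_path T (i := k) (k := l) (fun h => huv (h ▸ rfl)) [D.p i, D.p l]
    (by simp [huv, ek.ne', el.ne]) (by simp [ek.symm, el]) (by simp [D.hp]) (by simp)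
    (by simp; omega) (by simp; omega)

/-- Outside neighbours are independent if `q ≥ m - 2`. -/
theorem pcard_eq_zero [DecidableEq V] (T : Top G m A q Q) (D : Four G Q) (hm : 4 ≤ m)
    (hq : m ≤ q + 2) (i : Fin 4) : (nb G (Finset.univ.image D.p) (D.p i)).card = 0 := by
  rw [Finset.card_eq_zero, Finset.eq_empty_iff_forall_notMem]
  intro u hu
  simp only [mem_nb, Finset.mem_image, Finset.mem_univ, true_and] at hu
  obtain ⟨⟨k, rfl⟩, e⟩ := hu
  exact D.no_path T (i := i) (k := k) (fun h => e.ne (h ▸ rfl)) [D.p k]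
    (by simp [e.ne]) (by simp [e]) (by simp [D.hp]) (by simp) (by simp; omega) (by simp; omega)

/-- The first layers do not meet. -/
theorem disjoint_one (T : Top G m A q Q) (D : Four G Q) (hm : 5 ≤ m) (hq : m ≤ q + 3) :
    ∀ i k, i ≠ k → ∀ w ∈ D.one ∅ i, w ∉ D.one ∅ k := by
  intro i k hik w hw hw'
  obtain ⟨a, qw, pw, -⟩ := Four.mem_one.1 hw
  exact D.no_path T hik [w, D.p k] (by simp [(pw i).symm, D.hpi.ne hik, pw k])
    (by simp [a, (Four.mem_one.1 hw').1.symm]) (by simp [qw, D.hp]) (by simp) (by simp; omega)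
    (by simp; omega)

/-- The two layers behind one outside neighbour form no clique. -/
theorem two_ge (T : Top G m A q Q) (D : Four G Q) (hm : 7 ≤ m) (hq : m ≤ q + 3) (i : Fin 4) :
    2 ≤ alpha G (D.two ∅ i) := by
  classical
  have hd := disjoint_one T D (by omega) hq
  by_contra h2
  have hcl := isClique_of_alpha_le_one (G := G) (X := D.two ∅ i) (by omega)
  have hsub : D.one ∅ i ⊆ D.two ∅ i := fun u hu => Four.one_two hu
  have ha : alpha G (D.one ∅ i) ≤ 1 := by
    have := alpha_mono (G := G) hsub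
    omega
  have hr := D.one_lt T ∅ i ha
  have hdeg := D.deg_le T ∅ i
  rw [nb_empty] at hdeg
  have hC := T.corners_lt (D.hp i)
  have hM := pcard_le_one T D (by omega) hq i
  have hq2 := T.hq2
  have hP : ∀ w ∈ D.one ∅ i, ∀ k, G.Adj w (D.p k) → k = i := fun w hw k e => by
    by_contra hne
    obtain ⟨-, qw, pw, hE⟩ := Four.mem_one.1 hw
    exact hd i k (Ne.symm hne) w hw (Four.mem_one.2 ⟨e.symm, qw, pw, hE⟩)
  have key : ∀ w ∈ D.one ∅ i, (D.two ∅ i).card ≤ q ∧
      m ≤ (D.two ∅ i).card + (nb G Q w).card + 1 := fun w hw =>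
    Four.corners_ge T hcl hw (hP w hw) (by simp)
  by_cases hq2' : m ≤ q + 2
  swap
  · obtain ⟨w, hw, z, hz, hwz⟩ := Finset.one_lt_card.1 (show 1 < (D.one ∅ i).card by omega)
    obtain ⟨h1, h3⟩ := key z hz
    exact Four.no_side T (by omega) hq hw hz (hcl (hsub hw) (hsub hz) hwz) (by omega)
  have hM0 := pcard_eq_zero T D (by omega) hq2' i
  obtain ⟨w, hw⟩ := Finset.card_pos.1 (show 0 < (D.one ∅ i).card by omega)
  obtain ⟨h1, h3⟩ := key w hw
  by_cases hT : m ≤ (D.two ∅ i).card + 1
  · by_cases hr1 : (D.one ∅ i).card ≤ 1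
    · have hC1 : (nb G Q (D.p i)).card ≤ 1 := Finset.card_le_one.2 fun a ha b hb => by
        by_contra hab
        exact T.no_path (mem_nb.1 ha).1 (mem_nb.1 hb).1 hab (D.p i) [] (by simp) (by simp)
          (by simp [D.hp i]) (mem_nb.1 ha).2.symm (by simpa using (mem_nb.1 hb).2)
          (by simp; omega) (by simp; omega)
      omega
    obtain ⟨u, hu, v, hv, huv⟩ := Finset.one_lt_card.1 (show 1 < (D.one ∅ i).card by omega)
    refine T.bad.free (cyc_clique (m := m) hcl (hsub hu) (hsub hv) huv (D.p i) [] (by simp)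
      (by simp) ?_ (Four.mem_one.1 hu).1.symm (by simpa using (Four.mem_one.1 hv).1) (by simp; omega)
      (by simp; omega))
    simp only [List.mem_singleton, forall_eq]
    exact fun h => (Four.two_out h).2.1 i rfl
  obtain ⟨y, hy⟩ := Finset.card_pos.1 (show 0 < (nb G Q w).card by omega)
  have hC1 : (nb G Q (D.p i)).card ≤ 1 := Finset.card_le_one.2 fun a ha b hb =>
    (Four.no_corner T (by omega) hq2' hw hy ha).symm.trans
      (Four.no_corner T (by omega) hq2' hw hy hb)
  -- all of the first layer sees `x i`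
  have hall : ∀ u ∈ D.one ∅ i, G.Adj (D.x i) u := fun u hu => by
    obtain ⟨h1', h3'⟩ := key u hu
    obtain ⟨z, hz⟩ := Finset.card_pos.1 (show 0 < (nb G Q u).card by omega)
    rw [← Four.no_corner T (by omega) hq2' hu hz (x := D.x i)
      (mem_nb.2 ⟨D.hx i, (D.adj i).symm⟩)]
    exact (mem_nb.1 hz).2.symm
  have hcl2 : G.IsClique (insert (D.x i) (insert (D.p i) (D.one ∅ i)) : Finset V) := by
    rw [Finset.coe_insert, Finset.coe_insert]
    refine ((isClique_of_alpha_le_one ha).insert fun u hu _ => (Four.mem_one.1 hu).1).insert ?_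
    rintro u (rfl | hu) -
    · exact D.adj i
    · exact hall u hu
  have := T.hω _ (Finset.subset_univ _) hcl2
  rw [Finset.card_insert_of_notMem, Finset.card_insert_of_notMem] at this
  · omega
  · exact fun h' => (Four.mem_one.1 h').1.ne rfl
  · simp only [Finset.mem_insert, not_or]
    exact ⟨(D.adj i).ne, fun h' => (Four.mem_one.1 h').2.1 (D.hx i)⟩

/-- `m = 8`, at least five vertices in the clique. -/
theorem Top.false_eight (T : Top G 8 A q Q) (hq : 5 ≤ q) : False := by
  obtain ⟨D⟩ := T.exists_four (by omega) (by omega) le_rfl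
  have hd := disjoint_one T D (by omega) (by omega)
  have h := four_sum (G := G) T.bad.hA ∅ (fun i => D.two ∅ i)
    (fun i k hik u hu v hv => Four.two_two T hd le_rfl (by omega) hik hu hv) (by simp)
  have := fun i => two_ge T D (by omega) (by omega) i
  have := this 0
  have := two_ge T D (by omega) (by omega) 1
  have := two_ge T D (by omega) (by omega) 2
  have := two_ge T D (by omega) (by omega) 3
  have := T.bad.hAm
  omega

end Vale.Agent.P048.Full.SClash
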