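import Vale.Agent.P048.Full.SClash.Cases

/-! # No clique on four vertices without a cycle on eight

For `q = 4` two first layers may meet. The common vertices are isolated among the layers and are
counted by themselves. -/

namespace Vale.Agent.P048.Full.SClash

open Finset

variable {V : Type} [Fintype V] {G : SimpleGraph V} {A : ℕ} {Q : Finset V} {D : Four G Q}
  {i a b : Fin 4} {e : V}

open Classical in
/-- The vertices seen by two of the four. -/
noncomputable def Four.com (D : Four G Q) : Finset V :=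
  Finset.univ.filter fun u => u ∉ Q ∧ (∀ k, u ≠ D.p k) ∧
    ∃ i k, i ≠ k ∧ G.Adj (D.p i) u ∧ G.Adj (D.p k) u

theorem Four.mem_com : e ∈ D.com ↔ e ∉ Q ∧ (∀ k, e ≠ D.p k) ∧
    ∃ i k, i ≠ k ∧ G.Adj (D.p i) e ∧ G.Adj (D.p k) e := by
  classical simp [Four.com]

theorem com_disjoint (D : Four G Q) :
    ∀ i k, i ≠ k → ∀ w ∈ D.one D.com i, w ∉ D.one D.com k := by
  intro i k hik w hw hw'
  obtain ⟨a, qw, pw, hE⟩ := Four.mem_one.1 hw
  exact hE (Four.mem_com.2 ⟨qw, pw, i, k, hik, a, (Four.mem_one.1 hw').1⟩)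

theorem com_other (he : e ∈ D.com) (i : Fin 4) : ∃ k, k ≠ i ∧ G.Adj (D.p k) e := by
  obtain ⟨-, -, a, b, hab, ea, eb⟩ := Four.mem_com.1 he
  by_cases h : a = i
  · exact ⟨b, fun h' => hab (h.trans h'.symm), eb⟩
  · exact ⟨a, h, ea⟩

variable (T : Top G 8 A 4 Q)
include T

theorem com_one (he : e ∈ D.com) {v : V} (hv : v ∈ D.one D.com i) : ¬G.Adj e v := by
  intro h
  obtain ⟨k, hki, ek⟩ := com_other he i
  obtain ⟨qe, pe, -⟩ := Four.mem_com.1 he
  obtain ⟨av, qv, pv, -⟩ := Four.mem_one.1 hv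
  exact D.no_path T hki [e, v, D.p i] (by simp [ek.ne, (pv k).symm, D.hpi.ne hki, h.ne, pe i, pv i])
    (by simp [ek, h, av.symm]) (by simp [qe, qv, D.hp]) (by simp) (by simp) (by simp)

theorem com_two (he : e ∈ D.com) {v : V} (hv : v ∈ D.two D.com i) : e ≠ v ∧ ¬G.Adj e v := by
  refine ⟨fun h => (Four.two_out hv).2.2 (h ▸ he), fun h => ?_⟩
  rcases Four.mem_two.1 hv with hv | ⟨qv, pv, -, w, hw, ew⟩
  · exact com_one T he hv h
  obtain ⟨k, hki, ek⟩ := com_other he i
  obtain ⟨qe, pe, -⟩ := Four.mem_com.1 he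
  obtain ⟨aw, qw, pw, hwE⟩ := Four.mem_one.1 hw
  have hew : e ≠ w := fun h => hwE (h ▸ he)
  exact D.no_path T hki [e, v, w, D.p i]
    (by simp [ek.ne, (pv k).symm, (pw k).symm, D.hpi.ne hki, h.ne, hew, pe i, ew.ne', pv i, pw i])
    (by simp [ek, h, ew.symm, aw.symm]) (by simp [qe, qv, qw, D.hp]) (by simp) (by simp) (by simp)

theorem com_indep : Indep G D.com := by
  intro e he f hf h
  obtain ⟨qe, pe, a, -, -, ea, -⟩ := Four.mem_com.1 he
  obtain ⟨qf, pf, -⟩ := Four.mem_com.1 hf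
  obtain ⟨k, hka, ek⟩ := com_other hf a
  exact D.no_path T hka.symm [e, f, D.p k]
    (by simp [ea.ne, (pf a).symm, D.hpi.ne hka.symm, h.ne, pe k, pf k])
    (by simp [ea, h, ek.symm]) (by simp [qe, qf, D.hp]) (by simp) (by simp) (by simp)

/-- A nonempty first layer and the one behind it are no clique. -/
theorem two_ge_four (hne : (D.one D.com i).Nonempty) : 2 ≤ alpha G (D.two D.com i) := by
  classical
  have hd := com_disjoint D
  by_contra h2
  have hcl := isClique_of_alpha_le_one (G := G) (X := D.two D.com i) (by omega)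
  have key : ∀ w ∈ D.one D.com i, (D.two D.com i).card ≤ 4 ∧
      8 ≤ (D.two D.com i).card + (nb G Q w).card + 1 := fun w hw =>
    Four.corners_ge T hcl hw (fun k e => by
      by_contra hne'
      obtain ⟨-, qw, pw, hE⟩ := Four.mem_one.1 hw
      exact hd i k (Ne.symm hne') w hw (Four.mem_one.2 ⟨e.symm, qw, pw, hE⟩))
      (fun e he h => com_one T he hw h.symm)
  obtain ⟨w, hw⟩ := hne
  obtain ⟨hT, hTw⟩ := key w hw
  obtain ⟨aw, qw, pw, -⟩ := Four.mem_one.1 hw
  have hCw := T.corners_lt qw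
  have corner : ∀ z ∈ D.one D.com i, ∀ x, ∃ y ∈ Q, y ≠ x ∧ G.Adj z y := fun z hz x => by
    obtain ⟨h1, h3⟩ := key z hz
    obtain ⟨y, hy, hne⟩ :=
      Finset.exists_mem_ne (show 1 < (nb G Q z).card by omega) x
    exact ⟨y, (mem_nb.1 hy).1, hne, (mem_nb.1 hy).2⟩
  by_cases h1 : 1 < (D.one D.com i).card
  · obtain ⟨z, hz, hzw⟩ := Finset.exists_mem_ne h1 w
    obtain ⟨az, qz, pz, -⟩ := Four.mem_one.1 hz
    obtain ⟨y, hy, hyx, ey⟩ := corner z hz (D.x i)
    obtain ⟨u, hu⟩ : (((D.two D.com i).erase w).erase z).Nonempty := by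
      rw [← Finset.card_pos, Finset.card_erase_of_mem (Finset.mem_erase.2 ⟨hzw, Four.one_two hz⟩),
        Finset.card_erase_of_mem (Four.one_two hw)]
      omega
    simp only [Finset.mem_erase] at hu
    obtain ⟨qu, pu, -⟩ := Four.two_out hu.2.2
    exact T.no_path (D.hx i) hy hyx.symm (D.p i) [w, u, z]
      (by simp [aw.ne, (pu i).symm, (pz i).symm, hu.2.1.symm, hzw.symm, hu.1])
      (by simp [aw, hcl (Four.one_two hw) hu.2.2 hu.2.1.symm, hcl hu.2.2 (Four.one_two hz) hu.1])
      (by simp [D.hp, qw, qu, qz]) (D.adj i) (by simpa) (by simp) (by simp)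
  have hE0 : (nb G D.com (D.p i)).card = 0 := by
    rw [Finset.card_eq_zero, Finset.eq_empty_iff_forall_notMem]
    intro e he
    obtain ⟨he, ei⟩ := mem_nb.1 he
    obtain ⟨k, hki, ek⟩ := com_other he i
    obtain ⟨y, hy, hyx, ey⟩ := corner w hw (D.x k)
    obtain ⟨qe, pe, -⟩ := Four.mem_com.1 he
    have hwe : w ≠ e := fun h => (Four.mem_one.1 hw).2.2.2 (h ▸ he)
    exact T.no_path hy (D.hx k) hyx w [D.p i, e, D.p k]
      (by simp [pw i, hwe, pw k, ei.ne, D.hpi.ne hki.symm, pe k])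
      (by simp [aw.symm, ei, ek.symm]) (by simp [qw, qe, D.hp]) ey.symm
      (by simpa using (D.adj k).symm) (by simp) (by simp)
  have hdeg := D.deg_le T D.com i
  have hC := T.corners_lt (D.hp i)
  have hall : ∀ k, k ≠ i → G.Adj (D.p i) (D.p k) := by
    intro k hk
    by_contra hn
    have hsub : nb G (Finset.univ.image D.p) (D.p i) ⊆
        (((Finset.univ.erase i).erase k).image D.p) := fun v hv => by
      obtain ⟨hv, ev⟩ := mem_nb.1 hv
      obtain ⟨l, -, rfl⟩ := Finset.mem_image.1 hv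
      refine Finset.mem_image.2 ⟨l, ?_, rfl⟩
      simp only [Finset.mem_erase, Finset.mem_univ, and_true]
      exact ⟨fun h => hn (h ▸ ev), fun h => ev.ne (h ▸ rfl)⟩
    have := (Finset.card_le_card hsub).trans Finset.card_image_le
    rw [Finset.card_erase_of_mem (Finset.mem_erase.2 ⟨hk, Finset.mem_univ k⟩),
      Finset.card_erase_of_mem (Finset.mem_univ i), Finset.card_univ, Fintype.card_fin] at this
    omega
  -- a star of three runs and a fourth vertex inside the clique
  have close : ∀ k l o, k ≠ i → l ≠ i → o ≠ i → k ≠ l → k ≠ o → l ≠ o →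
      G.Adj w (D.x i) → G.Adj w (D.x o) → False := by
    intro k l o hk hl ho hkl hko hlo ea eo
    have ne : ∀ a b, D.p a ≠ D.x b := fun a b => T.ne_of (D.hx b) (D.hp a)
    have hx : ∀ a b, a ≠ b → D.x a ≠ D.x b := fun a b h h' => h (D.hxi h')
    have hwx : ∀ a, w ≠ D.x a := fun a h => qw (h ▸ D.hx a)
    refine T.bad.free (cyc_list (D.x k) [D.p k, D.p i, D.p l, D.x l, D.x o, w, D.x i] ?_ ?_ ?_ ?_)
    · simp [(ne _ _).symm, ne, hx k l hkl, hx k o hko, hx k i hk, (hwx k).symm, hwx i,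
        D.hpi.ne hk, D.hpi.ne hkl, D.hpi.ne hl.symm, hx l o hlo, hx l i hl, (hwx l).symm,
        hx o i ho, (hwx o).symm, (pw k).symm, (pw i).symm, (pw l).symm]
    · simp [D.adj k, (hall k hk).symm, hall l hl, (D.adj l).symm,
        T.hQ (D.hx l) (D.hx o) (hx l o hlo), eo.symm, ea]
    · simpa using T.hQ (D.hx i) (D.hx k) (hx i k hk.symm)
    · simp
  obtain ⟨k, l, o, hk, hl, ho, hkl, hko, hlo⟩ := (by decide : ∀ i : Fin 4, ∃ k l o : Fin 4,
    k ≠ i ∧ l ≠ i ∧ o ≠ i ∧ k ≠ l ∧ k ≠ o ∧ l ≠ o) i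
  have hQ4 : Q = Finset.univ.image D.x := (Finset.eq_of_subset_of_card_le
    (fun v hv => by obtain ⟨a, -, rfl⟩ := Finset.mem_image.1 hv; exact D.hx a)
    (by rw [Finset.card_image_of_injective _ D.hxi, T.hQc]; simp)).symm
  have miss : ∀ a c, a ≠ c → ¬G.Adj w (D.x a) → G.Adj w (D.x c) := fun a c hac hn => by
    by_contra hn'
    have hsub : nb G Q w ⊆ (Q.erase (D.x a)).erase (D.x c) := fun y hy => by
      obtain ⟨hy, ey⟩ := mem_nb.1 hy
      exact Finset.mem_erase.2 ⟨fun h => hn' (h ▸ ey), Finset.mem_erase.2 ⟨fun h => hn (h ▸ ey), hy⟩⟩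
    have := Finset.card_le_card hsub
    rw [Finset.card_erase_of_mem (Finset.mem_erase.2 ⟨fun h => hac (D.hxi h).symm, D.hx c⟩),
      Finset.card_erase_of_mem (D.hx a), T.hQc] at this
    omega
  by_cases hi : G.Adj w (D.x i)
  · by_cases hko' : G.Adj w (D.x o)
    · exact close k l o hk hl ho hkl hko hlo hi hko'
    · exact close o l k ho hl hk hlo.symm (Ne.symm hko) hkl.symm hi (miss o k hko.symm hko')
  · -- `w` sees the other three
    have ne : ∀ a b, D.p a ≠ D.x b := fun a b => T.ne_of (D.hx b) (D.hp a)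
    have hx : ∀ a b, a ≠ b → D.x a ≠ D.x b := fun a b h h' => h (D.hxi h')
    have hwx : ∀ a, w ≠ D.x a := fun a h => qw (h ▸ D.hx a)
    refine T.bad.free (cyc_list (D.x k) [D.p k, D.p i, D.p l, D.x l, w, D.x o, D.x i] ?_ ?_ ?_ ?_)
    · simp [(ne _ _).symm, ne, hx k l hkl, hx k o hko, hx k i hk, (hwx k).symm, hwx i, hwx o,
        D.hpi.ne hk, D.hpi.ne hkl, D.hpi.ne hl.symm, hx l o hlo, hx l i hl, (hwx l).symm,
        hx o i ho, (pw k).symm, (pw i).symm, (pw l).symm]
    · simp [D.adj k, (hall k hk).symm, hall l hl, (D.adj l).symm, (miss i l hl.symm hi).symm,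
        miss i o ho.symm hi, T.hQ (D.hx o) (D.hx i) (hx o i ho)]
    · simpa using T.hQ (D.hx i) (D.hx k) (hx i k hk.symm)
    · simp

/-- With a common vertex an outside neighbour sees at most one other. -/
theorem com_edge (he : e ∈ D.com) (ea : G.Adj (D.p a) e) (eb : G.Adj (D.p b) e) (hab : a ≠ b)
    (h : G.Adj (D.p a) (D.p i)) : i = b := by
  by_contra hib
  obtain ⟨qe, pe, -⟩ := Four.mem_com.1 he
  exact D.no_path T (Ne.symm hib) [e, D.p a, D.p i]
    (by simp [pe a, pe i, h.ne, (pe b).symm, D.hpi.ne hab.symm, D.hpi.ne (Ne.symm hib)])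
    (by simp [eb, ea.symm, h]) (by simp [qe, D.hp]) (by simp) (by simp) (by simp)

theorem com_no_matching {z t : Fin 4} (haz : a ≠ z) (hat : a ≠ t) (hbz : b ≠ z) (hbt : b ≠ t)
    (h1 : G.Adj (D.p a) (D.p b)) (h2 : G.Adj (D.p z) (D.p t)) : False := by
  have hab : a ≠ b := fun h => h1.ne (h ▸ rfl)
  have hzt : z ≠ t := fun h => h2.ne (h ▸ rfl)
  have ne : ∀ a b, D.p a ≠ D.x b := fun a b => T.ne_of (D.hx b) (D.hp a)
  have hx : ∀ a b, a ≠ b → D.x a ≠ D.x b := fun a b h h' => h (D.hxi h')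
  refine T.bad.free (cyc_list (D.x a) [D.p a, D.p b, D.x b, D.x z, D.p z, D.p t, D.x t] ?_ ?_ ?_ ?_)
  · simp [(ne _ _).symm, ne, hx a b hab, hx a z haz, hx a t hat, D.hpi.ne hab, D.hpi.ne haz,
      D.hpi.ne hat, D.hpi.ne hbz, D.hpi.ne hbt, hx b z hbz, hx b t hbt, D.hpi.ne hzt, hx z t hzt]
  · simp [D.adj a, h1, (D.adj b).symm, T.hQ (D.hx b) (D.hx z) (hx b z hbz), D.adj z, h2,
      (D.adj t).symm]
  · simpa using T.hQ (D.hx t) (D.hx a) (hx t a hat.symm)
  · simp

/-- The outside neighbours span at most one edge if there is a common vertex. -/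
theorem com_one_edge (he : e ∈ D.com) {c d : Fin 4} (h1 : G.Adj (D.p a) (D.p b))
    (h2 : G.Adj (D.p c) (D.p d)) : (c = a ∧ d = b) ∨ (c = b ∧ d = a) := by
  obtain ⟨-, -, u, v, huv, eu, ev⟩ := Four.mem_com.1 he
  have hu : ∀ k, G.Adj (D.p u) (D.p k) → k = v := fun k h => com_edge T he eu ev huv h
  have hv : ∀ k, G.Adj (D.p v) (D.p k) → k = u := fun k h => com_edge T he ev eu huv.symm h
  have hab : a ≠ b := fun h => h1.ne (h ▸ rfl)
  have hcd : c ≠ d := fun h => h2.ne (h ▸ rfl)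
  have key : ∀ {a b c d : Fin 4}, G.Adj (D.p a) (D.p b) → G.Adj (D.p c) (D.p d) → a ≠ c → a ≠ d →
      b ≠ c → b ≠ d → False := fun h1 h2 n1 n2 n3 n4 => com_no_matching T n1 n2 n3 n4 h1 h2
  have side : ∀ {a b}, G.Adj (D.p a) (D.p b) → (a = u ∧ b = v) ∨ (a = v ∧ b = u) ∨
      (a ≠ u ∧ a ≠ v ∧ b ≠ u ∧ b ≠ v) := by
    intro a b h
    by_cases h1 : a = u
    · subst h1; exact Or.inl ⟨rfl, hu b h⟩
    by_cases h2 : a = v
    · subst h2; exact Or.inr (Or.inl ⟨rfl, hv b h⟩)
    by_cases h3 : b = u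
    · subst h3; exact absurd (hu a h.symm) h2
    by_cases h4 : b = v
    · subst h4; exact absurd (hv a h.symm) h1
    exact Or.inr (Or.inr ⟨h1, h2, h3, h4⟩)
  rcases side h1 with ⟨rfl, rfl⟩ | ⟨rfl, rfl⟩ | ⟨n1, n2, n3, n4⟩ <;>
    rcases side h2 with ⟨rfl, rfl⟩ | ⟨rfl, rfl⟩ | ⟨m1, m2, m3, m4⟩
  all_goals
    first
      | exact Or.inl ⟨rfl, rfl⟩
      | exact Or.inr ⟨rfl, rfl⟩
      | exact (key h1 h2 (Ne.symm m1) (Ne.symm m3) (Ne.symm m2) (Ne.symm m4)).elim
      | exact (key h1 h2 (Ne.symm m2) (Ne.symm m4) (Ne.symm m1) (Ne.symm m3)).elim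
      | exact (key h1 h2 n1 n2 n3 n4).elim
      | exact (key h1 h2 n2 n1 n4 n3).elim
      | exact (by decide : ∀ a b c d u v : Fin 4, u ≠ v → a ≠ b → c ≠ d → a ≠ u → a ≠ v → b ≠ u →
          b ≠ v → c ≠ u → c ≠ v → d ≠ u → d ≠ v → (c = a ∧ d = b) ∨ (c = b ∧ d = a))
          a b c d u v huv hab hcd n1 n2 n3 n4 m1 m2 m3 m4

/-- Independent outside neighbours with empty first layers have many common vertices. -/
theorem com_big (S : Finset (Fin 4)) (hne : S.Nonempty)
    (hS : ∀ a ∈ S, ∀ b ∈ S, ¬G.Adj (D.p a) (D.p b)) (h0 : ∀ a ∈ S, D.one D.com a = ∅) :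
    7 * S.card < 8 + D.com.card := by
  classical
  have hI : Indep G (S.image D.p) := by
    intro u hu v hv
    obtain ⟨a, ha, rfl⟩ := Finset.mem_image.1 hu
    obtain ⟨b, hb, rfl⟩ := Finset.mem_image.1 hv
    exact hS a ha b hb
  have hbig := lt_card_cnb T.bad hI (hne.image _)
  rw [Finset.card_image_of_injective _ D.hpi] at hbig
  have hsub : cnb G (S.image D.p) ⊆ Q ∪ Finset.univ.image D.p ∪ D.com := by
    intro u hu
    simp only [Finset.mem_union, Finset.mem_image, Finset.mem_univ, true_and]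
    by_cases h1 : u ∈ Q
    · exact Or.inl (Or.inl h1)
    by_cases h2 : ∃ k, D.p k = u
    · exact Or.inl (Or.inr h2)
    by_cases h3 : u ∈ D.com
    · exact Or.inr h3
    exfalso
    rcases mem_cnb.1 hu with hu | ⟨s, hs, e⟩
    · obtain ⟨a, -, rfl⟩ := Finset.mem_image.1 hu
      exact h2 ⟨a, rfl⟩
    · obtain ⟨a, ha, rfl⟩ := Finset.mem_image.1 hs
      exact Finset.notMem_empty u (h0 a ha ▸ Four.mem_one.2 ⟨e, h1, fun k h => h2 ⟨k, h.symm⟩, h3⟩)
  have := Finset.card_le_card hsub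
  have := Finset.card_union_le (Q ∪ Finset.univ.image D.p) D.com
  have := Finset.card_union_le Q (Finset.univ.image D.p)
  have := T.hQc
  have hP : (Finset.univ.image D.p).card = 4 := by
    rw [Finset.card_image_of_injective _ D.hpi]; simp
  simp at hbig
  omega

/-- Two adjacent outside neighbours behind which there are only three common vertices. -/
theorem com_three (ha : D.one D.com a = ∅) (hb : D.one D.com b = ∅) (hab : G.Adj (D.p a) (D.p b))
    (hc : D.com.card ≤ 3)
    (hrest : ∀ k, k ≠ a → k ≠ b → (D.one D.com k).Nonempty) (hne : D.com.Nonempty) : False := by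
  classical
  obtain ⟨e, he⟩ := hne
  have hne' : a ≠ b := fun h => hab.ne (h ▸ rfl)
  have full : ∀ a b, D.one D.com a = ∅ → G.Adj (D.p a) (D.p b) →
      (∀ f ∈ D.com, G.Adj (D.p a) f) ∧ 3 ≤ (nb G Q (D.p a)).card ∧ 3 ≤ D.com.card := by
    intro a b ha hab
    have hd := D.deg_le T D.com a
    rw [ha, Finset.card_empty] at hd
    have := T.corners_lt (D.hp a)
    have hM : (nb G (Finset.univ.image D.p) (D.p a)).card ≤ 1 := by
      refine Finset.card_le_one.2 fun u hu v hv => ?_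
      obtain ⟨hu, eu⟩ := mem_nb.1 hu
      obtain ⟨hv, ev⟩ := mem_nb.1 hv
      obtain ⟨k, -, rfl⟩ := Finset.mem_image.1 hu
      obtain ⟨l, -, rfl⟩ := Finset.mem_image.1 hv
      rcases com_one_edge T he eu ev with ⟨-, h⟩ | ⟨h, -⟩
      · rw [h]
      · exact absurd rfl (h ▸ eu.ne)
    have hsub : nb G D.com (D.p a) ⊆ D.com := fun f hf => (mem_nb.1 hf).1
    have := Finset.card_le_card hsub
    refine ⟨fun f hf => ?_, by omega, by omega⟩
    rw [← Finset.eq_of_subset_of_card_le hsub (by omega), mem_nb] at hf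
    exact hf.2
  obtain ⟨hfa, -, hc3⟩ := full a b ha hab
  obtain ⟨hfb, hCb, -⟩ := full b a hb hab.symm
  obtain ⟨f, hf, hfe⟩ := Finset.exists_mem_ne (show 1 < D.com.card by omega) e
  obtain ⟨qe, pe, -⟩ := Four.mem_com.1 he
  obtain ⟨qf, pf, -⟩ := Four.mem_com.1 hf
  -- `e` has no neighbour in `Q` and sees two of the four only
  have eQ : ∀ y ∈ Q, ¬G.Adj e y := fun y hy ey => by
    obtain ⟨z, hz, hzy⟩ := Finset.exists_mem_ne (show 1 < (nb G Q (D.p b)).card by omega) y
    exact T.no_path hy (mem_nb.1 hz).1 hzy.symm e [D.p a, f, D.p b]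
      (by simp [pe a, hfe.symm, pe b, (pf a).symm, D.hpi.ne hne', pf b])
      (by simp [(hfa e he).symm, hfa f hf, (hfb f hf).symm]) (by simp [qe, qf, D.hp]) ey.symm
      (by simpa using (mem_nb.1 hz).2) (by simp) (by simp)
  have eP : ∀ k, G.Adj e (D.p k) → k = a ∨ k = b := fun k ek => by
    by_contra h
    push Not at h
    exact h.2 (com_edge T he (hfa e he) ek.symm h.1.symm hab).symm
  obtain ⟨O, hO⟩ : ∃ O, O = ((nb G Finset.univ e).erase (D.p a)).erase (D.p b) := ⟨_, rfl⟩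
  have hOc : 5 ≤ O.card := by
    have := T.bad.deg_ge e
    have := Finset.pred_card_le_card_erase (a := D.p a) (s := nb G Finset.univ e)
    have := Finset.pred_card_le_card_erase (a := D.p b) (s := (nb G Finset.univ e).erase (D.p a))
    rw [hO]
    omega
  obtain ⟨u, hu, v, hv, huv, hnuv⟩ : ∃ u ∈ O, ∃ v ∈ O, u ≠ v ∧ ¬G.Adj u v := by
    by_contra hno
    push Not at hno
    have := T.hω O (Finset.subset_univ _) (fun u hu v hv h => hno u hu v hv h)
    omega
  have hout : ∀ {u}, u ∈ O → G.Adj e u ∧ u ∉ Q ∧ (∀ k, u ≠ D.p k) ∧ u ∉ D.com := fun {u} hu => by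
    simp only [hO, Finset.mem_erase, mem_nb, Finset.mem_univ, true_and] at hu
    refine ⟨hu.2.2, fun h => eQ u h hu.2.2, fun k h => ?_, fun h => com_indep T e he u h hu.2.2⟩
    rcases eP k (h ▸ hu.2.2) with rfl | rfl
    · exact hu.2.1 h
    · exact hu.1 h
  -- no edge between the new vertices and the others
  have hfar : ∀ {u}, u ∈ O → ∀ g ∈ D.com, g ≠ e → ¬G.Adj u g := by
    intro u hu g hg hge h
    obtain ⟨eu, qu, pu, hug⟩ := hout hu
    obtain ⟨qg, pg, -⟩ := Four.mem_com.1 hg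
    exact D.no_path T hne' [e, u, g, D.p b]
      (by simp [(hfa e he).ne, (pu a).symm, (pg a).symm, D.hpi.ne hne', eu.ne, hge.symm, pe b, h.ne,
        pu b, pg b])
      (by simp [hfa e he, eu, h, (hfb g hg).symm]) (by simp [qe, qu, qg, D.hp]) (by simp) (by simp)
      (by simp)
  have hT : ∀ {u}, u ∈ O → ∀ k, ∀ w ∈ D.two D.com k, u ≠ w ∧ ¬G.Adj u w := by
    intro u hu k w hw
    obtain ⟨eu, qu, pu, hug⟩ := hout hu
    have hne : u ≠ w := fun h => (com_two T he hw).2 (h ▸ eu)
    refine ⟨hne, fun h => ?_⟩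
    have hempty : ∀ {k}, D.one D.com k = ∅ → w ∉ D.two D.com k := fun {k} h0 h' => by
      rcases Four.mem_two.1 h' with h' | ⟨-, -, -, z, hz, -⟩
      · exact Finset.notMem_empty w (h0 ▸ h')
      · exact Finset.notMem_empty z (h0 ▸ hz)
    have hka : k ≠ a := fun h => hempty (h ▸ ha) hw
    rcases Four.mem_two.1 hw with hw1 | ⟨qw, pw, hwE, z, hz, ez⟩
    · obtain ⟨aw, qw, pw, hwE⟩ := Four.mem_one.1 hw1
      exact D.no_path T hka [w, u, e, D.p a]
        (by simp [aw.ne, (pu k).symm, (pe k).symm, D.hpi.ne hka, hne.symm, (com_two T he hw).1.symm,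
          pw a, eu.ne', pu a, pe a])
        (by simp [aw, h.symm, eu.symm, (hfa e he).symm]) (by simp [qw, qu, qe, D.hp]) (by simp)
        (by simp) (by simp)
    · obtain ⟨az, qz, pz, hzE⟩ := Four.mem_one.1 hz
      have hzu : z ≠ u := fun h' => com_one T he hz (h' ▸ eu)
      have hze : z ≠ e := fun h' => hzE (h' ▸ he)
      exact D.no_path T hka [z, w, u, e, D.p a]
        (by simp [az.ne, (pw k).symm, (pu k).symm, (pe k).symm, D.hpi.ne hka, ez.ne,
          hzu, hze,
          pz a, hne.symm, (com_two T he hw).1.symm, pw a, eu.ne', pu a, pe a])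
        (by simp [az, ez, h.symm, eu.symm, (hfa e he).symm]) (by simp [qz, qw, qu, qe, D.hp])
        (by simp) (by simp) (by simp)
  obtain ⟨B, hB⟩ : ∃ B, B = insert u (insert v (D.com.erase e)) := ⟨_, rfl⟩
  have hBi : Indep G B := by
    subst hB
    intro p hp r hr h
    have hE : ∀ g ∈ D.com.erase e, g ∈ D.com ∧ g ≠ e := fun g hg =>
      ⟨Finset.mem_of_mem_erase hg, Finset.ne_of_mem_erase hg⟩
    simp only [Finset.mem_insert] at hp hr
    rcases hp with rfl | rfl | hp <;> rcases hr with rfl | rfl | hr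
    · exact G.irrefl h
    · exact hnuv h
    · exact hfar hu r (hE r hr).1 (hE r hr).2 h
    · exact hnuv h.symm
    · exact G.irrefl h
    · exact hfar hv r (hE r hr).1 (hE r hr).2 h
    · exact hfar hu p (hE p hp).1 (hE p hp).2 h.symm
    · exact hfar hv p (hE p hp).1 (hE p hp).2 h.symm
    · exact com_indep T p (hE p hp).1 r (hE r hr).1 h
  have hBc : B.card = 4 := by
    subst hB
    rw [Finset.card_insert_of_notMem, Finset.card_insert_of_notMem, Finset.card_erase_of_mem he]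
    · omega
    · exact fun h => (hout hv).2.2.2 (Finset.mem_of_mem_erase h)
    · simp only [Finset.mem_insert, not_or]
      exact ⟨huv, fun h => (hout hu).2.2.2 (Finset.mem_of_mem_erase h)⟩
  have hsum := four_sum (G := G) T.bad.hA B (fun k => D.two D.com k)
    (fun i k hik p hp r hr => Four.two_two T (com_disjoint D) le_rfl (by omega) hik hp hr)
    (fun p hp k r hr => by
      subst hB
      simp only [Finset.mem_insert] at hp
      rcases hp with rfl | rfl | hp
      · exact hT hu k r hr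
      · exact hT hv k r hr
      · exact com_two T (Finset.mem_of_mem_erase hp) hr)
  have := le_alpha (G := G) (subset_refl B) hBi
  have := T.bad.hAm
  have hge : ∀ k, (if k = a ∨ k = b then 0 else 2) ≤ alpha G (D.two D.com k) := fun k => by
    split_ifs with h
    · omega
    · push Not at h
      exact two_ge_four T (hrest k h.1 h.2)
  have := hge 0
  have := hge 1
  have := hge 2
  have := hge 3
  fin_cases a <;> fin_cases b <;> simp at * <;> omega

/-- `m = 8` and a largest clique on four vertices. -/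
theorem Top.false_four : False := by
  classical
  obtain ⟨D⟩ := T.exists_four le_rfl (by omega) le_rfl
  have hsum := four_sum (G := G) T.bad.hA D.com (fun k => D.two D.com k)
    (fun i k hik p hp r hr => Four.two_two T (com_disjoint D) le_rfl (by omega) hik hp hr)
    (fun p hp k r hr => com_two T hp hr)
  have := le_alpha (G := G) (subset_refl D.com) (com_indep T)
  have := T.bad.hAm
  obtain ⟨S, hS⟩ : ∃ S : Finset (Fin 4), S = Finset.univ.filter fun k => D.one D.com k = ∅ := ⟨_, rfl⟩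
  have hmem : ∀ k, k ∈ S ↔ D.one D.com k = ∅ := by simp [hS]
  have hge : ∀ k, (if k ∈ S then 0 else 2) ≤ alpha G (D.two D.com k) := fun k => by
    split_ifs with h
    · omega
    · exact two_ge_four T (Finset.nonempty_iff_ne_empty.2 fun h' => h ((hmem k).2 h'))
  have hsum' := (Finset.sum_le_sum fun k (_ : k ∈ Finset.univ) => hge k)
  rw [Fin.sum_univ_four (fun k => alpha G (D.two D.com k))] at hsum'
  have hcount : ∑ k : Fin 4, (if k ∈ S then 0 else 2) = 2 * (4 - S.card) := by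
    rw [Finset.sum_ite]
    simp [Finset.filter_not, Finset.card_sdiff_of_subset, mul_comm]
  rw [hcount] at hsum'
  by_cases hS0 : S.card = 0
  · omega
  obtain ⟨k, hk⟩ := Finset.card_pos.1 (show 0 < S.card by omega)
  have hdk := D.deg_le T D.com k
  rw [(hmem k).1 hk, Finset.card_empty] at hdk
  have := T.corners_lt (D.hp k)
  have hMk : (nb G (Finset.univ.image D.p) (D.p k)).card ≤ 3 := by
    have hsub : nb G (Finset.univ.image D.p) (D.p k) ⊆ (Finset.univ.image D.p).erase (D.p k) :=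
      fun u hu => Finset.mem_erase.2 ⟨(mem_nb.1 hu).2.ne', (mem_nb.1 hu).1⟩
    have := Finset.card_le_card hsub
    rw [Finset.card_erase_of_mem (Finset.mem_image_of_mem _ (Finset.mem_univ k)),
      Finset.card_image_of_injective _ D.hpi, Finset.card_univ, Fintype.card_fin] at this
    omega
  obtain ⟨e, hek⟩ := Finset.card_pos.1 (show 0 < (nb G D.com (D.p k)).card by omega)
  have he := (mem_nb.1 hek).1
  have hM1 : (nb G (Finset.univ.image D.p) (D.p k)).card ≤ 1 := by
    refine Finset.card_le_one.2 fun u hu v hv => ?_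
    obtain ⟨hu, eu⟩ := mem_nb.1 hu
    obtain ⟨hv, ev⟩ := mem_nb.1 hv
    obtain ⟨i, -, rfl⟩ := Finset.mem_image.1 hu
    obtain ⟨l, -, rfl⟩ := Finset.mem_image.1 hv
    rcases com_one_edge T he eu ev with ⟨-, h⟩ | ⟨h, -⟩
    · rw [h]
    · exact absurd rfl (h ▸ eu.ne)
  have hc3 : 3 ≤ D.com.card := by
    have := Finset.card_le_card (show nb G D.com (D.p k) ⊆ D.com from fun f hf => (mem_nb.1 hf).1)
    omega
  by_cases hedge : ∃ a ∈ S, ∃ b ∈ S, G.Adj (D.p a) (D.p b)
  · obtain ⟨a, ha, b, hb, hab⟩ := hedge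
    have hbig := fun h => com_big T (S.erase a) h (fun c hc d hd e' => by
      rcases com_one_edge T he hab e' with ⟨h1, -⟩ | ⟨-, h1⟩
      · exact (Finset.ne_of_mem_erase hc) h1
      · exact (Finset.ne_of_mem_erase hd) h1)
      (fun c hc => (hmem c).1 (Finset.mem_of_mem_erase hc))
    rw [Finset.card_erase_of_mem ha] at hbig
    by_cases h2 : S.card ≤ 2
    · by_cases hc4 : 4 ≤ D.com.card
      · omega
      have hSab : S = {a, b} := (Finset.eq_of_subset_of_card_le
        (Finset.insert_subset ha (Finset.singleton_subset_iff.2 hb))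
        (by rw [Finset.card_pair (show a ≠ b from fun h => hab.ne (congrArg D.p h))]; exact h2)).symm
      exact com_three T ((hmem a).1 ha) ((hmem b).1 hb) hab (by omega)
        (fun c hca hcb => Finset.nonempty_iff_ne_empty.2 fun h' => by
          have := (hmem c).2 h'
          simp [hSab, hca, hcb] at this)
        ⟨e, he⟩
    · have := hbig (Finset.card_pos.1 (by rw [Finset.card_erase_of_mem ha]; omega))
      have := Finset.card_le_univ S
      simp at this
      omega
  · push Not at hedge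
    have := com_big T S ⟨k, hk⟩ hedge (fun c hc => (hmem c).1 hc)
    have := Finset.card_le_univ S
    simp at this
    omega

end Vale.Agent.P048.Full.SClash
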