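import Vale.Agent.P048.Full.SClash.Tools
import Mathlib.Combinatorics.Hall.Basic

/-! # Four vertices of the clique with four neighbours outside

`D.one E i` holds the neighbours of the `i`-th outside vertex that lie outside the clique, the four
chosen vertices and `E`; `D.two E i` adds the next layer. For different indices these sets do not
meet and see no edge between them. -/

namespace Vale.Agent.P048.Full.SClash

open Finset

variable {V : Type} {G : SimpleGraph V} {m q A : ℕ} {Q : Finset V}

/-- A list outside `K` between two neighbours of vertices of a clique `K` closes to cycles. -/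
theorem cyc_clique {K : Finset V} (hK : G.IsClique (K : Set V)) {x y : V} (hx : x ∈ K) (hy : y ∈ K)
    (hxy : x ≠ y) (p : V) (l : List V) (hn : (p :: l).Nodup) (hc : (p :: l).IsChain G.Adj)
    (ho : ∀ v ∈ p :: l, v ∉ K) (h1 : G.Adj x p)
    (h2 : G.Adj ((p :: l).getLast (List.cons_ne_nil p l)) y)
    (hlo : l.length + 3 ≤ m) (hhi : m ≤ l.length + 1 + K.card) : HasCyc G m := by
  have hk := clique_pth hK hy hx hxy.symm (n := m - (l.length + 1)) (by omega) (by omega)
  have h := ((pth_list p l hn hc).append h2 hk
    (Set.disjoint_left.2 fun v hv hvK => ho v hv hvK)).cycle h1 (by omega)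
  rwa [show l.length + 1 + (m - (l.length + 1)) = m by omega] at h

variable [Fintype V]

theorem Top.hm (T : Top G m A q Q) : 4 ≤ m := T.bad.hm

theorem Top.ne_of (_T : Top G m A q Q) {x p : V} (hx : x ∈ Q) (hp : p ∉ Q) : p ≠ x := by
  rintro rfl
  exact hp hx

/-- A vertex outside misses a vertex of `Q`. -/
theorem Top.corners_lt (T : Top G m A q Q) {p : V} (hp : p ∉ Q) : (nb G Q p).card < q := by
  classical
  by_contra hle
  have hnb : nb G Q p ⊆ Q := fun y hy => (mem_nb.1 hy).1
  have heq : nb G Q p = Q := Finset.eq_of_subset_of_card_le hnb (by rw [T.hQc]; omega)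
  have hc : G.IsClique (insert p Q : Finset V) := by
    rw [Finset.coe_insert]
    refine T.hQ.insert fun y hy _ => ?_
    rw [Finset.mem_coe, ← heq, mem_nb] at hy
    exact hy.2
  have := T.hω _ (Finset.subset_univ _) hc
  rw [Finset.card_insert_of_notMem hp, T.hQc] at this
  omega

/-- Two runs with one vertex each between different pairs. -/
theorem Top.two_runs (T : Top G m A q Q) {x y z t p r : V} (hx : x ∈ Q) (hy : y ∈ Q) (hz : z ∈ Q)
    (ht : t ∈ Q) (hp : p ∉ Q) (hr : r ∉ Q) (hpr : p ≠ r) (hxy : x ≠ y) (hzt : z ≠ t)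
    (hzx : z ≠ x) (hzy : z ≠ y) (hm : 6 ≤ m) (hq : m ≤ q + 2)
    (e1 : G.Adj x p) (e2 : G.Adj p y) (e3 : G.Adj z r) (e4 : G.Adj r t) : False := by
  classical
  refine T.bad.free ?_
  have hsub : ∀ (a b : V), G.IsClique (((Q.erase a).erase b : Finset V) : Set V) := fun a b =>
    T.hQ.subset fun v hv => Finset.mem_of_mem_erase (Finset.mem_of_mem_erase hv)
  by_cases htx : t = x
  · -- the chain y p x r z
    subst htx
    refine cyc_clique (m := m) (K := Q.erase t) (T.hQ.subset fun v hv => Finset.mem_of_mem_erase hv)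
      (x := y) (y := z) (by simp [hy, hxy.symm]) (by simp [hz, hzx]) hzy.symm p [t, r]
      (by simp [T.ne_of hx hp, (T.ne_of hx hr).symm, hpr]) (by simp [e1.symm, e4.symm])
      (by simp [hp, hr]) e2.symm (by simpa using e3.symm) (by simp; omega) ?_
    simp [Finset.card_erase_of_mem hx, T.hQc]
    omega
  by_cases hty : t = y
  · subst hty
    refine cyc_clique (m := m) (K := Q.erase t) (T.hQ.subset fun v hv => Finset.mem_of_mem_erase hv)
      (x := x) (y := z) (by simp [hx, hxy]) (by simp [hz, hzy]) hzx.symm p [t, r]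
      (by simp [T.ne_of hy hp, (T.ne_of hy hr).symm, hpr]) (by simp [e2, e4.symm])
      (by simp [hp, hr]) e1 (by simpa using e3.symm) (by simp; omega) ?_
    simp [Finset.card_erase_of_mem hy, T.hQc]
    omega
  refine cyc_clique (m := m) (K := (Q.erase y).erase z) (hsub y z)
    (x := x) (y := t) (by simp [hx, hxy, hzx.symm]) (by simp [ht, hty, hzt.symm]) (Ne.symm htx)
    p [y, z, r]
    (by simp [T.ne_of hy hp, T.ne_of hz hp, hpr, hzy.symm, (T.ne_of hy hr).symm, e3.ne])
    (by simp [e2, e3, T.hQ hy hz hzy.symm]) (by simp [hp, hr]) e1 (by simpa using e4)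
    (by simp; omega) ?_
  simp [Finset.card_erase_of_mem hy, Finset.card_erase_of_mem (show z ∈ Q.erase y by simp [hz, hzy]),
    T.hQc]
  omega

/-- Every vertex of `Q` has `m - q` neighbours outside. -/
theorem Top.out_ge [DecidableEq V] (T : Top G m A q Q) {x : V} (hx : x ∈ Q) :
    m ≤ (nb G Finset.univ x \ Q).card + q := by
  have hd := T.bad.deg_ge x
  have hsub : nb G Finset.univ x ⊆ (nb G Finset.univ x \ Q) ∪ Q.erase x := fun y hy => by
    by_cases hyQ : y ∈ Q
    · exact Finset.mem_union_right _ (Finset.mem_erase.2 ⟨(mem_nb.1 hy).2.ne', hyQ⟩)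
    · exact Finset.mem_union_left _ (Finset.mem_sdiff.2 ⟨hy, hyQ⟩)
  have h1 := (Finset.card_le_card hsub).trans (Finset.card_union_le _ _)
  rw [Finset.card_erase_of_mem hx, T.hQc] at h1
  have : 1 ≤ q := T.hQc ▸ Finset.card_pos.2 ⟨x, hx⟩
  omega

/-- Four vertices of `Q` with different neighbours outside. -/
structure Four (G : SimpleGraph V) (Q : Finset V) where
  x : Fin 4 → V
  p : Fin 4 → V
  hx : ∀ i, x i ∈ Q
  hxi : Function.Injective x
  hp : ∀ i, p i ∉ Q
  hpi : Function.Injective p
  adj : ∀ i, G.Adj (x i) (p i)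

theorem Top.exists_four (T : Top G m A q Q) (hq : 4 ≤ q) (hm : 7 ≤ m) (hm8 : m ≤ 8) :
    Nonempty (Four G Q) := by
  classical
  obtain ⟨f⟩ := Function.Embedding.nonempty_of_card_le
    (α := Fin 4) (β := Q) (by simp [T.hQc, hq])
  obtain ⟨t, ht⟩ : ∃ t : Fin 4 → Finset V, ∀ i, t i = nb G Finset.univ (f i : V) \ Q :=
    ⟨_, fun i => rfl⟩
  have hall : ∀ s : Finset (Fin 4), s.card ≤ (s.biUnion t).card := by
    intro s
    by_contra hs
    obtain ⟨i0, hi0⟩ := Finset.card_pos.1 (show 0 < s.card by omega)
    have hge : ∀ i, m ≤ (t i).card + q := fun i => ht i ▸ T.out_ge (f i).2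
    have hsub : ∀ i ∈ s, t i ⊆ s.biUnion t := fun i hi => Finset.subset_biUnion_of_mem t hi
    have h0 := Finset.card_le_card (hsub i0 hi0)
    have h0' := hge i0
    have hs4 : s.card ≤ 4 := by simpa using Finset.card_le_univ s
    have hq2 := T.hq2
    -- all sets coincide with their union
    have hall : (s.biUnion t).card + q = m → ∀ i ∈ s, ∀ p ∈ s.biUnion t,
        p ∉ Q ∧ G.Adj (f i) p := fun he i hi p hp => by
      have : t i = s.biUnion t :=
        Finset.eq_of_subset_of_card_le (hsub i hi) (by have := hge i; omega)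
      rw [← this, ht, Finset.mem_sdiff, mem_nb] at hp
      exact ⟨hp.2, hp.1.2⟩
    by_cases hK : m ≤ q + 1
    · by_cases h1 : (s.biUnion t).card = 1
      · obtain ⟨i, hi, j, hj, hij⟩ := Finset.one_lt_card.1 (show 1 < s.card by omega)
        obtain ⟨p, hp⟩ := Finset.card_eq_one.1 h1
        have hpm : p ∈ s.biUnion t := by simp [hp]
        obtain ⟨hpQ, e1⟩ := hall (by omega) i hi p hpm
        obtain ⟨-, e2⟩ := hall (by omega) j hj p hpm
        exact T.no_path (f i).2 (f j).2 (fun h => hij (f.injective (Subtype.ext h))) p []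
          (by simp) (by simp) (by simp [hpQ]) e1 (by simpa using e2.symm) (by simp; omega)
          (by simp; omega)
      · -- at least two outside vertices, fewer than the number of indices
        obtain ⟨i, hi, j, hj, k, hk, hij, hik, hjk⟩ :=
          Finset.two_lt_card.1 (show 2 < s.card by omega)
        have hU := Finset.one_lt_card.1 (show 1 < (s.biUnion t).card by omega)
        have key : ∀ a ∈ s, ∀ p ∈ t a, ∀ b ∈ s, p ∈ t b → a ≠ b → False := by
          intro a ha p hp b hb hpb hab
          rw [ht, Finset.mem_sdiff, mem_nb] at hp hpb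
          exact T.no_path (f a).2 (f b).2 (fun h => hab (f.injective (Subtype.ext h))) p []
            (by simp) (by simp) (by simp [hp.2]) hp.1.2 (by simpa using hpb.1.2.symm)
            (by simp; omega) (by simp; omega)
        have hd : (s : Set (Fin 4)).PairwiseDisjoint t := fun a ha b hb hab =>
          Finset.disjoint_left.2 fun p hp hp' => key a ha p hp b hb hp' hab
        have := Finset.card_biUnion hd
        have : s.card ≤ ∑ a ∈ s, (t a).card := by
          rw [Finset.card_eq_sum_ones]
          exact Finset.sum_le_sum fun a _ => by have := hge a; omega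
        omega
    by_cases hK2 : m ≤ q + 2
    · -- three indices, at least two outside vertices
      obtain ⟨i, hi, j, hj, k, hk, hij, hik, hjk⟩ :=
        Finset.two_lt_card.1 (show 2 < s.card by omega)
      have hne : ∀ {a b}, a ≠ b → (f a : V) ≠ f b := fun h h' =>
        h (f.injective (Subtype.ext h'))
      by_cases h2 : (s.biUnion t).card = 2
      · obtain ⟨p, r, hpr, hU⟩ := Finset.card_eq_two.1 h2
        have hp := hall (by omega)
        have hpm : p ∈ s.biUnion t := by simp [hU]
        have hrm : r ∈ s.biUnion t := by simp [hU]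
        exact T.two_runs (f i).2 (f j).2 (f k).2 (f j).2 (hp i hi p hpm).1 (hp i hi r hrm).1 hpr
          (hne hij) (hne hjk.symm) (hne hik.symm) (hne hjk.symm) (by omega) hK2
          (hp i hi p hpm).2 (hp j hj p hpm).2.symm (hp k hk r hrm).2 (hp j hj r hrm).2.symm
      · -- three outside vertices, four indices
        have hsu : s = Finset.univ := (Finset.card_eq_iff_eq_univ s).1 (by simp; omega)
        have key : ∀ a b c, a ≠ b → c ≠ a → c ≠ b → ∀ p ∈ t a, p ∈ t b → ∀ r ∈ t c, r ≠ p →
            ∀ d, d ≠ c → r ∈ t d → False := by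
          intro a b c hab hca hcb p hpa hpb r hrc hrp d hdc hrd
          rw [ht, Finset.mem_sdiff, mem_nb] at hpa hpb hrc hrd
          exact T.two_runs (f a).2 (f b).2 (f c).2 (f d).2 hpa.2 hrc.2 hrp.symm (hne hab)
            (hne hdc.symm) (hne hca) (hne hcb) (by omega) hK2 hpa.1.2 hpb.1.2.symm hrc.1.2
            hrd.1.2.symm
        have hall4 : ∀ a, a ∈ s := fun a => hsu ▸ Finset.mem_univ a
        obtain ⟨p, hpa, hpb⟩ : ∃ p, p ∈ t 0 ∧ p ∈ t 1 := by
          by_contra hno
          push Not at hno
          have hd := Finset.card_union_of_disjoint (Finset.disjoint_left.2 hno)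
          have := Finset.card_le_card
            (Finset.union_subset (hsub 0 (hall4 0)) (hsub 1 (hall4 1)))
          have := hge 0
          have := hge 1
          omega
        obtain ⟨r, hr, hrp⟩ := Finset.exists_mem_ne (show 1 < (t 2).card by have := hge 2; omega) p
        by_cases hd : ∃ d, d ≠ 2 ∧ r ∈ t d
        · obtain ⟨d, hd, hrd⟩ := hd
          exact key 0 1 2 (by decide) (by decide) (by decide) p hpa hpb r hr hrp d hd hrd
        push Not at hd
        have he : ∀ d, d ≠ 2 → t d = (s.biUnion t).erase r := fun d h =>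
          Finset.eq_of_subset_of_card_le
            (fun v hv => Finset.mem_erase.2 ⟨fun h' => hd d h (h' ▸ hv), hsub d (hall4 d) hv⟩) (by
              rw [Finset.card_erase_of_mem (hsub 2 (hall4 2) hr)]
              have := hge d
              omega)
        obtain ⟨v, hv, hvp⟩ := Finset.exists_mem_ne (show 1 < (t 3).card by have := hge 3; omega) p
        refine key 0 1 3 (by decide) (by decide) (by decide) p hpa hpb v hv hvp 0 (by decide) ?_
        rw [he 0 (by decide), ← he 3 (by decide)]
        exact hv
    · -- all four indices see the same three outside vertices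
      have hs : s = Finset.univ := (Finset.card_eq_iff_eq_univ s).1 (by simp; omega)
      obtain ⟨p, r, u, hpr, hpu, hru, hU⟩ :=
        Finset.card_eq_three.1 (show (s.biUnion t).card = 3 by omega)
      have h := fun a => hall (by omega) a (hs ▸ Finset.mem_univ a)
      have hp := fun a => h a p (by simp [hU])
      have hr := fun a => h a r (by simp [hU])
      have hu := fun a => h a u (by simp [hU])
      have hne : ∀ {a b}, a ≠ b → (f a : V) ≠ f b := fun h h' =>
        h (f.injective (Subtype.ext h'))
      refine T.bad.free (cyc_clique (m := m) (K := (Q.erase (f 1)).erase (f 2))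
        (T.hQ.subset fun v hv => Finset.mem_of_mem_erase (Finset.mem_of_mem_erase hv))
        (x := f 0) (y := f 3) ?_ ?_ (hne (by decide)) p [(f 1 : V), r, (f 2 : V), u] ?_ ?_ ?_
        (hp 0).2 ?_ (by simp; omega) ?_)
      · simp [hne (show (0 : Fin 4) ≠ 1 by decide), hne (show (0 : Fin 4) ≠ 2 by decide)]
      · simp [hne (show (3 : Fin 4) ≠ 1 by decide), hne (show (3 : Fin 4) ≠ 2 by decide)]
      · simp [T.ne_of (f 1).2 (hp 0).1, T.ne_of (f 2).2 (hp 0).1, hpr, hpu, hru,
          hne (show (1 : Fin 4) ≠ 2 by decide), (T.ne_of (f 1).2 (hr 0).1).symm,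
          (T.ne_of (f 1).2 (hu 0).1).symm, T.ne_of (f 2).2 (hr 0).1,
          (T.ne_of (f 2).2 (hu 0).1).symm]
      · simp [(hp 1).2.symm, (hr 1).2, (hr 2).2.symm, (hu 2).2]
      · simp [(hp 0).1, (hr 0).1, (hu 0).1]
      · simpa using (hu 3).2.symm
      · simp [Finset.card_erase_of_mem (f 1).2, Finset.card_erase_of_mem
          (show (f 2 : V) ∈ Q.erase (f 1) by simp [hne (show (2 : Fin 4) ≠ 1 by decide)]), T.hQc]
        omega
  obtain ⟨p, hpi, hp⟩ := (Finset.all_card_le_biUnion_card_iff_exists_injective t).1 hall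
  have hp' : ∀ i, p i ∉ Q ∧ G.Adj (f i) (p i) := fun i => by
    have := hp i
    rw [ht, Finset.mem_sdiff, mem_nb] at this
    exact ⟨this.2, this.1.2⟩
  exact ⟨⟨fun i => f i, p, fun i => (f i).2, Subtype.val_injective.comp f.injective,
    fun i => (hp' i).1, hpi, fun i => (hp' i).2⟩⟩

end Vale.Agent.P048.Full.SClash
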