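import Vale.Agent.P048.Full.A2
import Vale.Agent.P048.Full.M
import Vale.Agent.P048.Full.Clash.Main
import Vale.Agent.P048.Full.Assemble
import Vale.Agent.P048.Full.SClashSmall

/-! # Cycles on nine and ten vertices: no clique of five -/

namespace Vale.Agent.P048.Full

/-- A smallest counterexample on cycles of nine or ten vertices has no clique on five. -/
theorem SClash.clique_nine_ten (V : Type) [Fintype V] (G : SimpleGraph V) (m A : ℕ)
    (h : Bad G m A) (h9 : 9 ≤ m) (h10 : m ≤ 10) : CliqueLE G Finset.univ 4 := by
  have hS := sMPin a2Pin V G m (by omega) h10 h.free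
  have := h.no_big_clique_of a2Pin clashPin h9
    fun X b h2 hb => hS.upto5 h9 X b h2 (by omega)
  rwa [show (m - 1) / 2 = 4 by omega] at this

/-- Block SClash. -/
theorem sClashPin : SClashPin :=
  sClashPin_of fun V _ G m A h h9 h10 _ => SClash.clique_nine_ten V G m A h h9 h10

end Vale.Agent.P048.Full
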