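import Vale.Agent.P048.Full.SClash.Four

/-! # The two layers behind four outside neighbours

If the first layers do not meet, then the sets are pairwise disjoint and see no edge between
different indices, as far as paths of at most `m - 2` vertices tell. -/

namespace Vale.Agent.P048.Full.SClash

open Finset

variable {V : Type} {G : SimpleGraph V} {m q A : ℕ} {Q : Finset V}

/-- Four sets, pairwise disjoint and without edges between them, add up. -/
theorem four_sum [Fintype V] (hA : alpha G Finset.univ ≤ A) (B : Finset V) (U : Fin 4 → Finset V)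
    (hd : ∀ i k, i ≠ k → ∀ u ∈ U i, ∀ v ∈ U k, u ≠ v ∧ ¬G.Adj u v)
    (hB : ∀ b ∈ B, ∀ i, ∀ v ∈ U i, b ≠ v ∧ ¬G.Adj b v) :
    alpha G B + (alpha G (U 0) + alpha G (U 1) + alpha G (U 2) + alpha G (U 3)) ≤ A := by
  classical
  refine le_trans ?_ hA
  have step : ∀ X Y : Finset V, (∀ u ∈ X, ∀ v ∈ Y, u ≠ v ∧ ¬G.Adj u v) →
      alpha G X + alpha G Y ≤ alpha G (X ∪ Y) := fun X Y h =>
    alpha_add_le Finset.subset_union_left Finset.subset_union_right
      (Finset.disjoint_left.2 fun a ha ha' => (h a ha a ha').1 rfl) fun a ha b hb => (h a ha b hb).2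
  have h1 := step B (U 0) (fun b hb v hv => hB b hb 0 v hv)
  have h2 := step (B ∪ U 0) (U 1) (fun b hb v hv => by
    rcases Finset.mem_union.1 hb with hb | hb
    · exact hB b hb 1 v hv
    · exact hd 0 1 (by decide) b hb v hv)
  have h3 := step (B ∪ U 0 ∪ U 1) (U 2) (fun b hb v hv => by
    simp only [Finset.mem_union, or_assoc] at hb
    rcases hb with hb | hb | hb
    · exact hB b hb 2 v hv
    · exact hd 0 2 (by decide) b hb v hv
    · exact hd 1 2 (by decide) b hb v hv)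
  have h4 := step (B ∪ U 0 ∪ U 1 ∪ U 2) (U 3) (fun b hb v hv => by
    simp only [Finset.mem_union, or_assoc] at hb
    rcases hb with hb | hb | hb | hb
    · exact hB b hb 3 v hv
    · exact hd 0 3 (by decide) b hb v hv
    · exact hd 1 3 (by decide) b hb v hv
    · exact hd 2 3 (by decide) b hb v hv)
  have := alpha_mono (G := G) (Finset.subset_univ (B ∪ U 0 ∪ U 1 ∪ U 2 ∪ U 3))
  omega

variable [Fintype V]

open Classical in
/-- The first layer behind `p i`. -/
noncomputable def Four.one (D : Four G Q) (E : Finset V) (i : Fin 4) : Finset V :=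
  Finset.univ.filter fun u => G.Adj (D.p i) u ∧ u ∉ Q ∧ (∀ k, u ≠ D.p k) ∧ u ∉ E

open Classical in
/-- The first two layers behind `p i`. -/
noncomputable def Four.two (D : Four G Q) (E : Finset V) (i : Fin 4) : Finset V :=
  Finset.univ.filter fun u => u ∈ D.one E i ∨
    (u ∉ Q ∧ (∀ k, u ≠ D.p k) ∧ u ∉ E ∧ ∃ w ∈ D.one E i, G.Adj w u)

variable {D : Four G Q} {E : Finset V} {i k : Fin 4} {u v w : V}

theorem Four.mem_one :
    u ∈ D.one E i ↔ G.Adj (D.p i) u ∧ u ∉ Q ∧ (∀ k, u ≠ D.p k) ∧ u ∉ E := by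
  classical simp [Four.one]

theorem Four.mem_two : u ∈ D.two E i ↔ u ∈ D.one E i ∨
    (u ∉ Q ∧ (∀ k, u ≠ D.p k) ∧ u ∉ E ∧ ∃ w ∈ D.one E i, G.Adj w u) := by
  classical simp [Four.two]

theorem Four.one_two (hu : u ∈ D.one E i) : u ∈ D.two E i := Four.mem_two.2 (Or.inl hu)

theorem Four.two_out (hu : u ∈ D.two E i) : u ∉ Q ∧ (∀ k, u ≠ D.p k) ∧ u ∉ E := by
  rcases Four.mem_two.1 hu with h | ⟨a, b, c, -⟩
  · exact (Four.mem_one.1 h).2
  · exact ⟨a, b, c⟩

/-- A path from `p i` to `p k` outside is excluded. -/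
theorem Four.no_path (T : Top G m A q Q) (hik : i ≠ k) (l : List V)
    (hn : (D.p i :: l).Nodup) (hc : (D.p i :: l).IsChain G.Adj) (ho : ∀ v ∈ l, v ∉ Q)
    (h2 : (D.p i :: l).getLast (List.cons_ne_nil _ l) = D.p k)
    (hlo : m ≤ l.length + 1 + q) (hhi : l.length + 3 ≤ m) : False :=
  T.no_path (D.hx i) (D.hx k) (fun h => hik (D.hxi h)) (D.p i) l hn hc
    (List.forall_mem_cons.2 ⟨D.hp i, ho⟩) (D.adj i) (h2 ▸ (D.adj k).symm) hlo hhi

variable (T : Top G m A q Q) (hd : ∀ i k, i ≠ k → ∀ w ∈ D.one E i, w ∉ D.one E k)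
include T hd

/-- Two first layers see no edge. -/
theorem Four.one_one (hm : 7 ≤ m) (hq : m ≤ 4 + q) (hik : i ≠ k) (hu : u ∈ D.one E i)
    (hv : v ∈ D.one E k) : u ≠ v ∧ ¬G.Adj u v := by
  refine ⟨fun h => hd i k hik u hu (h ▸ hv), fun e => ?_⟩
  obtain ⟨au, qu, pu, -⟩ := Four.mem_one.1 hu
  obtain ⟨av, qv, pv, -⟩ := Four.mem_one.1 hv
  exact D.no_path T hik [u, v, D.p k]
    (by simp [(pu i).symm, (pv i).symm, D.hpi.ne hik, e.ne, pu k, pv k])
    (by simp [au, e, av.symm]) (by simp [qu, qv, D.hp k]) (by simp) (by simp; omega)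
    (by simp; omega)

/-- The second layer misses the other first layers. -/
theorem Four.two_one (hm : 7 ≤ m) (hq : m ≤ 4 + q) (hik : i ≠ k) (hu : u ∈ D.two E i)
    (hv : v ∈ D.one E k) : u ≠ v ∧ ¬G.Adj u v := by
  rcases Four.mem_two.1 hu with hu | ⟨qu, pu, -, w, hw, ew⟩
  · exact Four.one_one T hd hm hq hik hu hv
  have hwv := Four.one_one T hd hm hq hik hw hv
  obtain ⟨aw, qw, pw, -⟩ := Four.mem_one.1 hw
  obtain ⟨av, qv, pv, -⟩ := Four.mem_one.1 hv
  refine ⟨fun h => hwv.2 (h ▸ ew), fun e => ?_⟩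
  exact D.no_path T hik [w, u, v, D.p k]
    (by simp [(pw i).symm, (pu i).symm, (pv i).symm, D.hpi.ne hik, ew.ne, hwv.1, pw k, e.ne, pu k,
      pv k])
    (by simp [aw, ew, e, av.symm]) (by simp [qu, qv, qw, D.hp k]) (by simp) (by simp; omega)
    (by simp; omega)

/-- Two second layers see no edge once paths on six vertices are excluded. -/
theorem Four.two_two (hm : 8 ≤ m) (hq : m ≤ 4 + q) (hik : i ≠ k) (hu : u ∈ D.two E i)
    (hv : v ∈ D.two E k) : u ≠ v ∧ ¬G.Adj u v := by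
  rcases Four.mem_two.1 hv with hv' | ⟨qv, pv, -, z, hz, ez⟩
  · exact Four.two_one T hd (by omega) hq hik hu hv'
  rcases Four.mem_two.1 hu with hu' | ⟨qu, pu, -, w, hw, ew⟩
  · have h := Four.two_one T hd (by omega) hq hik.symm hv hu'
    exact ⟨h.1.symm, fun e => h.2 e.symm⟩
  have hwz := Four.one_one T hd (by omega) hq hik hw hz
  have hwv := Four.two_one T hd (by omega) hq hik.symm hv hw
  have huz := Four.two_one T hd (by omega) hq hik hu hz
  obtain ⟨aw, qw, pw, -⟩ := Four.mem_one.1 hw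
  obtain ⟨az, qz, pz, -⟩ := Four.mem_one.1 hz
  refine ⟨fun h => huz.2 (h ▸ ez.symm), fun e => ?_⟩
  exact D.no_path T hik [w, u, v, z, D.p k]
    (by simp [(pw i).symm, (pu i).symm, (pv i).symm, (pz i).symm, D.hpi.ne hik, ew.ne, hwv.1.symm,
      hwz.1, pw k, e.ne, huz.1, pu k, ez.ne', pv k, pz k])
    (by simp [aw, ew, e, ez.symm, az.symm]) (by simp [qu, qv, qw, qz, D.hp k]) (by simp)
    (by simp; omega) (by simp; omega)

omit hd

/-- If two layers behind `p i` form a clique, then a vertex of the first sees many vertices of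
`Q`. -/
theorem Four.corners_ge (hcl : G.IsClique (D.two E i : Set V)) (hw : w ∈ D.one E i)
    (hP : ∀ k, G.Adj w (D.p k) → k = i) (hE : ∀ e ∈ E, ¬G.Adj w e) :
    (D.two E i).card ≤ q ∧ m ≤ (D.two E i).card + (nb G Q w).card + 1 := by
  classical
  refine ⟨T.hω _ (Finset.subset_univ _) hcl, ?_⟩
  have hsub : nb G Finset.univ w ⊆ insert (D.p i) ((D.two E i).erase w) ∪ nb G Q w := fun u hu => by
    have e : G.Adj w u := (mem_nb.1 hu).2
    by_cases huQ : u ∈ Q
    · exact Finset.mem_union_right _ (mem_nb.2 ⟨huQ, e⟩)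
    refine Finset.mem_union_left _ ?_
    by_cases hup : ∃ k, u = D.p k
    · obtain ⟨k, rfl⟩ := hup
      rw [hP k e]
      exact Finset.mem_insert_self _ _
    push Not at hup
    exact Finset.mem_insert_of_mem (Finset.mem_erase.2 ⟨e.ne', Four.mem_two.2
      (Or.inr ⟨huQ, hup, fun h => hE u h e, w, hw, e⟩)⟩)
  have h1 := (Finset.card_le_card hsub).trans (Finset.card_union_le _ _)
  have h2 := Finset.card_insert_le (D.p i) ((D.two E i).erase w)
  have := T.bad.deg_ge w
  have := Finset.card_pos.2 ⟨w, Four.one_two hw⟩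
  rw [Finset.card_erase_of_mem (Four.one_two hw)] at h2
  omega

/-- Neighbours of a vertex of the first layer in `Q`. -/
theorem Four.no_corner (hm : 4 ≤ m) (hq : m ≤ q + 2) (hw : w ∈ D.one E i) {y : V}
    (hy : y ∈ nb G Q w) {x : V} (hx : x ∈ nb G Q (D.p i)) : y = x := by
  by_contra hne
  obtain ⟨hy, ey⟩ := mem_nb.1 hy
  obtain ⟨hx, ex⟩ := mem_nb.1 hx
  obtain ⟨aw, qw, -⟩ := Four.mem_one.1 hw
  exact T.no2 hx hy (Ne.symm hne) (D.hp i) qw ex.symm aw ey (by omega) hm

/-- Two vertices of the first layer joined there and a neighbour of one of them in `Q` other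
than `x i`. -/
theorem Four.no_side (hm : 5 ≤ m) (hq : m ≤ q + 3) {z : V} (hw : w ∈ D.one E i)
    (hz : z ∈ D.one E i) (hwz : G.Adj w z) (h2 : 2 ≤ (nb G Q z).card) : False := by
  obtain ⟨y, hy, hne⟩ := Finset.exists_mem_ne h2 (D.x i)
  obtain ⟨hy, ey⟩ := mem_nb.1 hy
  obtain ⟨aw, qw, -⟩ := Four.mem_one.1 hw
  obtain ⟨az, qz, pz, -⟩ := Four.mem_one.1 hz
  exact T.no3 (D.hx i) hy hne.symm (D.hp i) qw qz (D.adj i) aw hwz ey (pz i).symm (by omega) hm

omit T

/-- All neighbours of `p i`. -/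
theorem Four.nb_sub [DecidableEq V] (D : Four G Q) (E : Finset V) (i : Fin 4) :
    nb G Finset.univ (D.p i) ⊆
      nb G Q (D.p i) ∪ nb G (Finset.univ.image D.p) (D.p i) ∪ nb G E (D.p i) ∪ D.one E i := by
  intro u hu
  have e := (mem_nb.1 hu).2
  simp only [Finset.mem_union, mem_nb, Finset.mem_image, Finset.mem_univ, true_and]
  by_cases hQ : u ∈ Q
  · exact Or.inl (Or.inl (Or.inl ⟨hQ, e⟩))
  by_cases hE : u ∈ E
  · exact Or.inl (Or.inr ⟨hE, e⟩)
  by_cases hP : ∃ k, u = D.p k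
  · obtain ⟨k, rfl⟩ := hP
    exact Or.inl (Or.inl (Or.inr ⟨⟨k, rfl⟩, e⟩))
  push Not at hP
  exact Or.inr (Four.mem_one.2 ⟨e, hQ, hP, hE⟩)

theorem Four.deg_le [DecidableEq V] (T : Top G m A q Q) (D : Four G Q) (E : Finset V) (i : Fin 4) :
    m ≤ (nb G Q (D.p i)).card + (nb G (Finset.univ.image D.p) (D.p i)).card
      + (nb G E (D.p i)).card + (D.one E i).card + 1 := by
  have := (Finset.card_le_card (D.nb_sub E i)).trans (Finset.card_union_le _ _)
  have := Finset.card_union_le (nb G Q (D.p i) ∪ nb G (Finset.univ.image D.p) (D.p i))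
    (nb G E (D.p i))
  have := Finset.card_union_le (nb G Q (D.p i)) (nb G (Finset.univ.image D.p) (D.p i))
  have := T.bad.deg_ge (D.p i)
  omega

/-- A clique behind `p i` has fewer than `q` vertices. -/
theorem Four.one_lt [DecidableEq V] (T : Top G m A q Q) (D : Four G Q) (E : Finset V) (i : Fin 4)
    (h : alpha G (D.one E i) ≤ 1) : (D.one E i).card + 1 ≤ q := by
  have hc : G.IsClique (insert (D.p i) (D.one E i) : Finset V) := by
    rw [Finset.coe_insert]
    exact (isClique_of_alpha_le_one h).insert fun u hu _ => (Four.mem_one.1 hu).1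
  have := T.hω _ (Finset.subset_univ _) hc
  rwa [Finset.card_insert_of_notMem fun h' => (Four.mem_one.1 h').1.ne rfl] at this

end Vale.Agent.P048.Full.SClash
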