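import Vale.Agent.P048.Full.SClash.Cases

/-! # No clique on four vertices without a cycle on seven -/

namespace Vale.Agent.P048.Full.SClash

open Finset

variable {V : Type} [Fintype V] {G : SimpleGraph V} {m q A : ℕ} {Q : Finset V}

/-- At most two of the first layers are cliques. -/
theorem Top.not_three (T : Top G 7 A q Q) (hq : 4 ≤ q) (hq5 : q ≤ 5) (D : Four G Q) (i j l : Fin 4)
    (hij : i ≠ j) (hil : i ≠ l) (hjl : j ≠ l) (hi : alpha G (D.one ∅ i) ≤ 1)
    (hj : alpha G (D.one ∅ j) ≤ 1) (hl : alpha G (D.one ∅ l) ≤ 1) : False := by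
  classical
  have hdeg : ∀ a, alpha G (D.one ∅ a) ≤ 1 →
      7 ≤ (nb G Q (D.p a)).card + (nb G (Finset.univ.image D.p) (D.p a)).card + q := fun a ha => by
    have := D.deg_le T ∅ a
    rw [nb_empty] at this
    have := D.one_lt T ∅ a ha
    omega
  have hside : ∀ a, alpha G (D.one ∅ a) ≤ 1 → ∃ y ∈ Q, y ≠ D.x a ∧ G.Adj (D.p a) y := fun a ha => by
    have := hdeg a ha
    have := pcard_le_one T D (by omega) (by omega) a
    have h2 : 2 ≤ (nb G Q (D.p a)).card := by
      by_cases h5 : q = 5
      · have := pcard_eq_zero T D (by omega) (by omega) a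
        omega
      · omega
    obtain ⟨y, hy, hne⟩ := Finset.exists_mem_ne h2 (D.x a)
    exact ⟨y, (mem_nb.1 hy).1, hne, (mem_nb.1 hy).2⟩
  have hx : ∀ {a b}, a ≠ b → D.x a ≠ D.x b := fun h h' => h (D.hxi h')
  by_cases h5 : q = 5
  · obtain ⟨y, hy, hyx, ey⟩ := hside i hi
    have key : ∀ c, alpha G (D.one ∅ c) ≤ 1 → c ≠ i → D.x c ≠ y → False := fun c hc hci hcy => by
      obtain ⟨t, ht, htx, et⟩ := hside c hc
      exact T.two_runs (D.hx i) hy (D.hx c) ht (D.hp i) (D.hp c) (D.hpi.ne hci.symm) hyx.symm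
        htx.symm (hx hci) hcy (by omega) (by omega) (D.adj i) ey (D.adj c) et
    by_cases hy' : D.x j = y
    · exact key l hl hil.symm fun h => hx hjl (hy'.trans h.symm)
    · exact key j hj hij.symm hy'
  have h4 : q = 4 := by omega
  subst h4
  -- an edge between two outside neighbours and a further one with two neighbours in `Q`
  have run : ∀ a k c, G.Adj (D.p a) (D.p k) → c ≠ a → c ≠ k → alpha G (D.one ∅ c) ≤ 1 → False := by
    intro a k c e hca hck hc
    obtain ⟨w, hw, hwx, ew⟩ := hside c hc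
    have hak : a ≠ k := fun h => e.ne (h ▸ rfl)
    have ne : ∀ {b}, D.p b ≠ D.x a ∧ D.p b ≠ D.x k ∧ D.p b ≠ D.x c := fun {b} =>
      ⟨T.ne_of (D.hx a) (D.hp b), T.ne_of (D.hx k) (D.hp b), T.ne_of (D.hx c) (D.hp b)⟩
    by_cases hwa : w = D.x a
    · subst hwa
      exact T.bad.free (cyc_clique (m := 7) (K := Q.erase (D.x a))
        (T.hQ.subset fun v hv => Finset.mem_of_mem_erase hv) (x := D.x k) (y := D.x c)
        (by simp [D.hx k, hx hak.symm]) (by simp [D.hx c, hx hca]) (hx hck.symm)
        (D.p k) [D.p a, D.x a, D.p c]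
        (by simp [ne.1, ne.1.symm, D.hpi.ne hak.symm, D.hpi.ne hca.symm, D.hpi.ne hck.symm])
        (by simp [e.symm, (D.adj a).symm, ew.symm])
        (by simp [D.hp]) (D.adj k) (by simpa using (D.adj c).symm) (by simp)
        (by simp [Finset.card_erase_of_mem (D.hx a), T.hQc]))
    by_cases hwk : w = D.x k
    · subst hwk
      exact T.bad.free (cyc_clique (m := 7) (K := Q.erase (D.x k))
        (T.hQ.subset fun v hv => Finset.mem_of_mem_erase hv) (x := D.x a) (y := D.x c)
        (by simp [D.hx a, hx hak]) (by simp [D.hx c, hx hck]) (hx hca.symm)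
        (D.p a) [D.p k, D.x k, D.p c]
        (by simp [ne.2.1, ne.2.1.symm, D.hpi.ne hak, D.hpi.ne hca.symm, D.hpi.ne hck.symm])
        (by simp [e, (D.adj k).symm, ew.symm])
        (by simp [D.hp]) (D.adj a) (by simpa using (D.adj c).symm) (by simp)
        (by simp [Finset.card_erase_of_mem (D.hx k), T.hQc]))
    exact T.bad.free (cyc_clique (m := 7) (K := (Q.erase (D.x k)).erase (D.x c))
      (T.hQ.subset fun v hv => Finset.mem_of_mem_erase (Finset.mem_of_mem_erase hv))
      (x := D.x a) (y := w) (by simp [D.hx a, hx hak, hx hca.symm]) (by simp [hw, hwk, hwx])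
      (Ne.symm hwa) (D.p a) [D.p k, D.x k, D.x c, D.p c]
      (by simp [ne.2.1, ne.2.1.symm, ne.2.2, ne.2.2.symm, hx hck.symm, D.hpi.ne hak,
        D.hpi.ne hca.symm, D.hpi.ne hck.symm])
      (by simp [e, (D.adj k).symm, T.hQ (D.hx k) (D.hx c) (hx hck.symm), D.adj c])
      (by simp [D.hp]) (D.adj a) (by simpa using ew) (by simp) (by
        simp [Finset.card_erase_of_mem (D.hx k), T.hQc, Finset.card_erase_of_mem
          (show D.x c ∈ Q.erase (D.x k) by simp [D.hx c, hx hck])]))
  have single : ∀ a k, (a = i ∨ a = j) → ¬G.Adj (D.p a) (D.p k) := by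
    rintro a k (rfl | rfl) e
    · by_cases hkj : k = j
      · subst hkj
        exact run a k l e hil.symm hjl.symm hl
      · exact run a k j e hij.symm (Ne.symm hkj) hj
    · by_cases hki : k = i
      · subst hki
        exact run a k l e hjl.symm hil.symm hl
      · exact run a k i e hij (Ne.symm hki) hi
  have hS : Indep G ({D.p i, D.p j} : Finset V) := Indep.pair (single i j (Or.inl rfl))
  have hbig := lt_card_cnb T.bad hS (by simp)
  have hsub : cnb G ({D.p i, D.p j} : Finset V) ⊆
      {D.p i, D.p j} ∪ Q ∪ D.one ∅ i ∪ D.one ∅ j := by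
    intro u hu
    simp only [Finset.mem_union]
    rcases mem_cnb.1 hu with hu | ⟨s, hs, e⟩
    · exact Or.inl (Or.inl (Or.inl hu))
    by_cases huQ : u ∈ Q
    · exact Or.inl (Or.inl (Or.inr huQ))
    simp only [Finset.mem_insert, Finset.mem_singleton] at hs
    rcases hs with rfl | rfl
    · exact Or.inl (Or.inr (Four.mem_one.2 ⟨e, huQ, fun k h => single i k (Or.inl rfl) (h ▸ e),
        by simp⟩))
    · exact Or.inr (Four.mem_one.2 ⟨e, huQ, fun k h => single j k (Or.inr rfl) (h ▸ e), by simp⟩)
  have h1 := Finset.card_le_card hsub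
  have := Finset.card_union_le ({D.p i, D.p j} ∪ Q ∪ D.one ∅ i) (D.one ∅ j)
  have := Finset.card_union_le ({D.p i, D.p j} ∪ Q) (D.one ∅ i)
  have := Finset.card_union_le ({D.p i, D.p j} : Finset V) Q
  have := D.one_lt T ∅ i hi
  have := D.one_lt T ∅ j hj
  have := T.hQc
  rw [Finset.card_pair (D.hpi.ne hij)] at *
  omega

/-- One vertex outside for each vertex of a clique on six vertices. -/
theorem Top.false_six (T : Top G 7 A 6 Q) : False := by
  classical
  have hne : ∀ x : Q, ∃ p, p ∉ Q ∧ G.Adj (x : V) p := fun x => by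
    obtain ⟨p, hp⟩ := Finset.card_pos.1
      (show 0 < (nb G Finset.univ (x : V) \ Q).card by have := T.out_ge x.2; omega)
    exact ⟨p, (Finset.mem_sdiff.1 hp).2, (mem_nb.1 (Finset.mem_sdiff.1 hp).1).2⟩
  choose p hpQ hadj using hne
  have hC : ∀ (x : Q) y, y ∈ Q → G.Adj (p x) y → y = x := fun x y hy e => by
    by_contra h
    exact T.no_path x.2 hy (Ne.symm h) (p x) [] (by simp) (by simp) (by simp [hpQ x]) (hadj x)
      (by simpa) (by simp) (by simp)
  have hinj : ∀ x y : Q, x ≠ y → p x ≠ p y := fun x y hxy h => hxy (Subtype.ext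
    (hC x y y.2 (h ▸ (hadj y).symm)).symm)
  have hne : ∀ {x y : Q}, x ≠ y → (x : V) ≠ y := fun h h' => h (Subtype.ext h')
  have hfar : ∀ x y : Q, x ≠ y → ∀ u v, G.Adj (p x) u → u ∉ Q → G.Adj (p y) v → v ∉ Q →
      u ≠ v ∧ ¬G.Adj u v := by
    intro x y hxy u v eu qu ev qv
    refine ⟨fun h => ?_, fun e => ?_⟩
    · subst h
      exact T.no3 x.2 y.2 (hne hxy) (hpQ x) qu (hpQ y) (hadj x) eu ev.symm (hadj y).symm
        (hinj x y hxy) (by omega) (by omega)
    · have d : p x ≠ v := fun h => T.no2 x.2 y.2 (hne hxy) (hpQ x) (hpQ y) (hadj x)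
        (h ▸ ev.symm) (hadj y).symm (by omega) (by omega)
      have d' : u ≠ p y := fun h => T.no2 x.2 y.2 (hne hxy) (hpQ x) (hpQ y) (hadj x)
        (h ▸ eu) (hadj y).symm (by omega) (by omega)
      exact T.no4 x.2 y.2 (hne hxy) (hpQ x) qu qv (hpQ y) (hadj x) eu e ev.symm (hadj y).symm d
        (hinj x y hxy) d' (by omega) (by omega)
  have hcard : ∀ x : Q, 5 ≤ (nb G Finset.univ (p x) \ {(x : V)}).card := fun x => by
    have := T.bad.deg_ge (p x)
    have := Finset.le_card_sdiff {(x : V)} (nb G Finset.univ (p x))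
    rw [Finset.card_singleton] at this
    omega
  have hout : ∀ (x : Q) u, u ∈ nb G Finset.univ (p x) \ {(x : V)} → G.Adj (p x) u ∧ u ∉ Q :=
    fun x u hu => by
      rw [Finset.mem_sdiff, Finset.mem_singleton, mem_nb] at hu
      exact ⟨hu.1.2, fun h => hu.2 (hC x u h hu.1.2)⟩
  have hw : ∀ x : Q, ∃ u, G.Adj (p x) u ∧ u ∉ Q ∧ ¬G.Adj (x : V) u := fun x => by
    by_contra hall
    push Not at hall
    -- then two of them close a cycle or all form too large a clique
    obtain ⟨W, hWdef⟩ : ∃ W, W = nb G Finset.univ (p x) \ {(x : V)} := ⟨_, rfl⟩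
    by_cases hWc : G.IsClique (W : Set V)
    · have hc : G.IsClique (insert (x : V) (insert (p x) W) : Finset V) := by
        rw [Finset.coe_insert, Finset.coe_insert]
        refine (hWc.insert fun u hu _ => (hout x u (hWdef ▸ hu)).1).insert ?_
        rintro u (rfl | hu) -
        · exact hadj x
        · exact hall u (hout x u (hWdef ▸ hu)).1 (hout x u (hWdef ▸ hu)).2
      have := T.hω _ (Finset.subset_univ _) hc
      rw [Finset.card_insert_of_notMem, Finset.card_insert_of_notMem] at this
      · have := hcard x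
        rw [← hWdef] at this
        omega
      · exact fun h => (hout x (p x) (hWdef ▸ h)).1.ne rfl
      · simp only [Finset.mem_insert, not_or]
        exact ⟨(hadj x).ne, fun h => (hout x x (hWdef ▸ h)).2 x.2⟩
    · obtain ⟨u, hu, v, hv, huv, hnuv⟩ : ∃ u ∈ W, ∃ v ∈ W, u ≠ v ∧ ¬G.Adj u v := by
        simpa [SimpleGraph.IsClique, Set.Pairwise] using hWc
      choose w hw using fun y : Q => Finset.card_pos.1
        (show 0 < (nb G Finset.univ (p y) \ {(y : V)}).card by have := hcard y; omega)
      obtain ⟨hu1, hu2⟩ := hout x u (hWdef ▸ hu)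
      obtain ⟨hv1, hv2⟩ := hout x v (hWdef ▸ hv)
      let f : Option Q → V := fun o => o.elim v fun y => if y = x then u else w y
      have hf : ∀ y : Q, ∀ z, z = (if y = x then u else w y) → G.Adj (p y) z ∧ z ∉ Q := by
        intro y z hz
        by_cases h : y = x
        · subst h
          rw [if_pos rfl] at hz
          exact hz ▸ ⟨hu1, hu2⟩
        · rw [if_neg h] at hz
          exact hz ▸ hout y _ (hw y)
      have key : ∀ a b, a ≠ b → f a ≠ f b ∧ ¬G.Adj (f a) (f b) := by
        rintro (_ | a) (_ | b) hab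
        · exact absurd rfl hab
        · by_cases h : b = x
          · subst h
            exact ⟨by simpa [f] using huv.symm, by simpa [f] using fun e => hnuv e.symm⟩
          · have h1 := hfar x b (Ne.symm h) v (f (some b)) hv1 hv2 (hf b _ rfl).1 (hf b _ rfl).2
            exact h1
        · by_cases h : a = x
          · subst h
            exact ⟨by simpa [f] using huv, by simpa [f] using hnuv⟩
          · exact hfar a x h (f (some a)) v (hf a _ rfl).1 (hf a _ rfl).2 hv1 hv2
        · exact hfar a b (fun h => hab (h ▸ rfl)) _ _ (hf a _ rfl).1 (hf a _ rfl).2 (hf b _ rfl).1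
            (hf b _ rfl).2
      have h7 := le_alpha (G := G) (Finset.subset_univ (Finset.univ.image f)) (by
        intro a ha b hb e
        simp only [Finset.mem_image, Finset.mem_univ, true_and] at ha hb
        obtain ⟨a, rfl⟩ := ha
        obtain ⟨b, rfl⟩ := hb
        exact (key a b fun h => e.ne (h ▸ rfl)).2 e)
      rw [Finset.card_image_of_injective _ fun a b h => by_contra fun hab => (key a b hab).1 h]
        at h7
      have := T.bad.hA
      have := T.bad.hAm
      simp [T.hQc] at h7
      omega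
  choose w hw1 hw2 hw3 using hw
  obtain ⟨x0⟩ : Nonempty Q := by
    obtain ⟨a, ha⟩ := Finset.card_pos.1 (show 0 < Q.card by rw [T.hQc]; omega)
    exact ⟨⟨a, ha⟩⟩
  let f : Option Q → V := fun o => o.elim (x0 : V) w
  have key : ∀ a b, a ≠ b → f a ≠ f b ∧ ¬G.Adj (f a) (f b) := by
    have side : ∀ y : Q, (x0 : V) ≠ w y ∧ ¬G.Adj (x0 : V) (w y) := fun y => by
      refine ⟨fun h => hw2 y (h ▸ x0.2), ?_⟩
      by_cases h : y = x0
      · exact h ▸ hw3 y
      · exact fun e => T.no2 y.2 x0.2 (hne h) (hpQ y) (hw2 y) (hadj y) (hw1 y) e.symm (by omega)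
          (by omega)
    rintro (_ | a) (_ | b) hab
    · exact absurd rfl hab
    · exact side b
    · exact ⟨(side a).1.symm, fun e => (side a).2 e.symm⟩
    · exact hfar a b (fun h => hab (h ▸ rfl)) _ _ (hw1 a) (hw2 a) (hw1 b) (hw2 b)
  have h7 := le_alpha (G := G) (Finset.subset_univ (Finset.univ.image f)) (by
    intro a ha b hb e
    simp only [Finset.mem_image, Finset.mem_univ, true_and] at ha hb
    obtain ⟨a, rfl⟩ := ha
    obtain ⟨b, rfl⟩ := hb
    exact (key a b fun h => e.ne (h ▸ rfl)).2 e)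
  rw [Finset.card_image_of_injective _ fun a b h => by_contra fun hab => (key a b hab).1 h] at h7
  have := T.bad.hA
  have := T.bad.hAm
  simp [T.hQc] at h7
  omega

/-- `m = 7`. -/
theorem Top.false_seven (T : Top G 7 A q Q) (hq : 4 ≤ q) : False := by
  classical
  by_cases h6 : q = 6
  · subst h6
    exact T.false_six
  have hq5 : q ≤ 5 := by have := T.hq2; omega
  obtain ⟨D⟩ := T.exists_four hq le_rfl (by omega)
  have hd := disjoint_one T D (by omega) (by omega)
  -- `i` gets two layers; all but one of the others are no cliques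
  obtain ⟨i, c, hc⟩ : ∃ i c, ∀ k, k ≠ i → k ≠ c → 2 ≤ alpha G (D.one ∅ k) := by
    by_cases h : ∃ a, alpha G (D.one ∅ a) ≤ 1
    · obtain ⟨a, ha⟩ := h
      by_cases h' : ∃ b, b ≠ a ∧ alpha G (D.one ∅ b) ≤ 1
      · obtain ⟨b, hba, hb⟩ := h'
        refine ⟨a, b, fun k hka hkb => ?_⟩
        by_contra hk
        exact T.not_three hq hq5 D a b k (Ne.symm hba) (Ne.symm hka) (Ne.symm hkb) ha hb (by omega)
      · push Not at h'
        exact ⟨a, a, fun k hk _ => h' k hk⟩
    · push Not at h
      exact ⟨0, 0, fun k _ _ => h k⟩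
  obtain ⟨U, hU⟩ : ∃ U : Fin 4 → Finset V, U = fun k => if k = i then D.two ∅ k else D.one ∅ k :=
    ⟨_, rfl⟩
  have h := four_sum (G := G) T.bad.hA ∅ U (fun a b hab u hu v hv => by
    subst hU
    by_cases ha : a = i
    · subst ha
      simp only [if_neg (Ne.symm hab)] at hu hv
      exact Four.two_one T hd le_rfl (by omega) hab hu hv
    by_cases hb : b = i
    · subst hb
      simp only [if_neg hab] at hu hv
      have h := Four.two_one T hd le_rfl (by omega) hab.symm hv hu
      exact ⟨h.1.symm, fun e => h.2 e.symm⟩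
    simp only [if_neg ha, if_neg hb] at hu hv
    exact Four.one_one T hd le_rfl (by omega) hab hu hv) (by simp)
  have hge : ∀ k, (if k = c then 1 else 2) ≤ alpha G (U k) := by
    intro k
    subst hU
    have h2 := two_ge T D le_rfl (by omega) k
    have hne : (D.one ∅ k).Nonempty := by
      rw [← Finset.card_pos]
      have := D.deg_le T ∅ k
      rw [nb_empty] at this
      have := pcard_le_one T D (by omega) (by omega) k
      have := T.corners_lt (D.hp k)
      omega
    by_cases hk : k = i
    · subst hk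
      simp only
      split_ifs <;> omega
    simp only [if_neg hk]
    split_ifs with hkc
    · obtain ⟨u, hu⟩ := hne
      exact alpha_pos hu
    · exact hc k hk hkc
  have := hge 0
  have := hge 1
  have := hge 2
  have := hge 3
  have := T.bad.hAm
  fin_cases c <;> simp at * <;> omega

end Vale.Agent.P048.Full.SClash
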