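import Vale.Agent.P048.Full.SClash.Seven
import Vale.Agent.P048.Full.SClash.Eight

/-! # No clique on four vertices for cycles on seven or eight -/

namespace Vale.Agent.P048.Full.SClash

open Finset

variable {V : Type} [Fintype V] {G : SimpleGraph V} {m A : ℕ}

/-- In a smallest counterexample for `m = 7` or `m = 8` every clique has at most three vertices. -/
theorem clique_small (h : Bad G m A) (hm : m = 7 ∨ m = 8) : CliqueLE G Finset.univ 3 := by
  obtain ⟨Q, -, hQ, hω⟩ := exists_max_clique (G := G) (Finset.univ : Finset V)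
  intro K hK hc
  refine (hω K hK hc).trans ?_
  by_contra h3
  have hq2 : Q.card + 1 ≤ m := by
    by_contra hlt
    exact h.free (clique_cycle hQ (by omega) (by omega))
  rcases hm with rfl | rfl
  · exact (⟨h, hQ, rfl, hω, hq2⟩ : Top G 7 A Q.card Q).false_seven (by omega)
  · by_cases h4 : Q.card = 4
    · exact (⟨h, hQ, h4, h4 ▸ hω, by omega⟩ : Top G 8 A 4 Q).false_four
    · exact (⟨h, hQ, rfl, hω, hq2⟩ : Top G 8 A Q.card Q).false_eight (by omega)

theorem clique7 (h : Bad G 7 A) : CliqueLE G Finset.univ 3 := clique_small h (Or.inl rfl)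

theorem clique8 (h : Bad G 8 A) : CliqueLE G Finset.univ 3 := clique_small h (Or.inr rfl)

end Vale.Agent.P048.Full.SClash
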