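import Vale.Agent.P048.Full.SmallTools
import Vale.Agent.P048.Full.SmallBase

/-! # A clique on more than half of few vertices: tools

A path outside a clique `Q` between neighbours of two vertices of `Q` is completed inside `Q` to
cycles of all admissible orders. In a smallest counterexample an independent set has a large
closed neighbourhood. -/

namespace Vale.Agent.P048.Full.SClash

open Finset

variable {V : Type} {G : SimpleGraph V} {m q A : ℕ} {Q : Finset V}

/-- The path through the members of a list. -/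
theorem pth_list : ∀ (a : V) (l : List V), (a :: l).Nodup → (a :: l).IsChain G.Adj →
    Pth G a ((a :: l).getLast (List.cons_ne_nil a l)) (l.length + 1) {x | x ∈ a :: l}
  | a, [], _, _ => by simpa using Pth.single (G := G) a
  | a, b :: l, hn, hc => by
    rw [List.nodup_cons] at hn
    rw [List.isChain_cons_cons] at hc
    have h := (Pth.single (G := G) a).append hc.1 (pth_list b l hn.2 hc.2)
      (Set.disjoint_singleton_left.2 hn.1)
    rw [List.getLast_cons (List.cons_ne_nil b l), List.length_cons,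
      show l.length + 1 + 1 = 1 + (l.length + 1) by omega]
    exact h.mono (Set.union_subset (by simp) fun x hx => List.mem_cons_of_mem a hx)

/-- A closed list of pairwise distinct vertices is a cycle. -/
theorem cyc_list (a : V) (l : List V) (hn : (a :: l).Nodup) (hc : (a :: l).IsChain G.Adj)
    (hl : G.Adj ((a :: l).getLast (List.cons_ne_nil a l)) a) (h2 : 2 ≤ l.length) :
    HasCyc G (l.length + 1) :=
  (pth_list a l hn hc).cycle hl (by omega)

/-- A largest clique, of more than half of `m` vertices, in a smallest counterexample. -/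
structure Top [Fintype V] (G : SimpleGraph V) (m A q : ℕ) (Q : Finset V) : Prop where
  bad : Bad G m A
  hQ : G.IsClique (Q : Set V)
  hQc : Q.card = q
  hω : CliqueLE G Finset.univ q
  hq2 : q + 1 ≤ m

/-- No path of between `m - q` and `m - 2` vertices outside `Q` joins two vertices of `Q`. -/
theorem Top.no_path [Fintype V] (T : Top G m A q Q) {x y : V} (hx : x ∈ Q) (hy : y ∈ Q)
    (hxy : x ≠ y) (p : V) (l : List V) (hn : (p :: l).Nodup) (hc : (p :: l).IsChain G.Adj)
    (ho : ∀ v ∈ p :: l, v ∉ Q) (h1 : G.Adj x p)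
    (h2 : G.Adj ((p :: l).getLast (List.cons_ne_nil p l)) y)
    (hlo : m ≤ l.length + 1 + q) (hhi : l.length + 3 ≤ m) : False := by
  refine T.bad.free ?_
  have hp := pth_list p l hn hc
  have hk := clique_pth T.hQ hy hx hxy.symm (n := m - (l.length + 1)) (by omega)
    (by rw [T.hQc]; omega)
  have h := (hp.append h2 hk (Set.disjoint_left.2 fun v hv hvQ => ho v hv hvQ)).cycle h1
    (by omega)
  rwa [show l.length + 1 + (m - (l.length + 1)) = m by omega] at h

variable [Fintype V]

theorem Top.no2 (T : Top G m A q Q) {x y p r : V} (hx : x ∈ Q) (hy : y ∈ Q) (hxy : x ≠ y)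
    (hp : p ∉ Q) (hr : r ∉ Q) (h1 : G.Adj x p) (e1 : G.Adj p r) (h2 : G.Adj r y)
    (hlo : m ≤ 2 + q) (hhi : 4 ≤ m) : False :=
  T.no_path hx hy hxy p [r] (by simp [e1.ne]) (by simp [e1]) (by simp [hp, hr]) h1 (by simpa)
    (by simpa using hlo) (by simpa using hhi)

theorem Top.no3 (T : Top G m A q Q) {x y p w r : V} (hx : x ∈ Q) (hy : y ∈ Q) (hxy : x ≠ y)
    (hp : p ∉ Q) (hw : w ∉ Q) (hr : r ∉ Q) (h1 : G.Adj x p) (e1 : G.Adj p w) (e2 : G.Adj w r)
    (h2 : G.Adj r y) (hpr : p ≠ r) (hlo : m ≤ 3 + q) (hhi : 5 ≤ m) : False :=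
  T.no_path hx hy hxy p [w, r] (by simp [e1.ne, e2.ne, hpr]) (by simp [e1, e2])
    (by simp [hp, hw, hr]) h1 (by simpa) (by simpa using hlo) (by simpa using hhi)

theorem Top.no4 (T : Top G m A q Q) {x y p w w' r : V} (hx : x ∈ Q) (hy : y ∈ Q) (hxy : x ≠ y)
    (hp : p ∉ Q) (hw : w ∉ Q) (hw' : w' ∉ Q) (hr : r ∉ Q) (h1 : G.Adj x p) (e1 : G.Adj p w)
    (e2 : G.Adj w w') (e3 : G.Adj w' r) (h2 : G.Adj r y) (d1 : p ≠ w') (d2 : p ≠ r) (d3 : w ≠ r)
    (hlo : m ≤ 4 + q) (hhi : 6 ≤ m) : False :=
  T.no_path hx hy hxy p [w, w', r] (by simp [e1.ne, e2.ne, e3.ne, d1, d2, d3])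
    (by simp [e1, e2, e3]) (by simp [hp, hw, hw', hr]) h1 (by simpa) (by simpa using hlo)
    (by simpa using hhi)

open Classical in
/-- The closed neighbourhood of a set. -/
noncomputable def cnb (G : SimpleGraph V) (S : Finset V) : Finset V :=
  Finset.univ.filter fun x => x ∈ S ∨ ∃ s ∈ S, G.Adj s x

theorem mem_cnb {S : Finset V} {x : V} : x ∈ cnb G S ↔ x ∈ S ∨ ∃ s ∈ S, G.Adj s x := by
  classical simp [cnb]

/-- The closed neighbourhood of `k` independent vertices has more than `(m - 1) k` vertices. -/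
theorem lt_card_cnb (h : Bad G m A) {S : Finset V} (hS : Indep G S) (hne : S.Nonempty) :
    (m - 1) * S.card < (cnb G S).card := by
  classical
  have ha : alpha G S + alpha G (Finset.univ \ cnb G S) ≤ A := by
    refine le_trans (alpha_add_le (Finset.subset_univ _) (Finset.subset_univ _) ?_ ?_) h.hA
    · exact Finset.disjoint_left.2 fun x hx hx' =>
        (Finset.mem_sdiff.1 hx').2 (mem_cnb.2 (Or.inl hx))
    · exact fun a ha b hb e =>
        (Finset.mem_sdiff.1 hb).2 (mem_cnb.2 (Or.inr ⟨a, ha, e⟩))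
  have hs := le_alpha (G := G) (subset_refl S) hS
  have hpos := hne.card_pos
  have hu := (h.small (Finset.univ \ cnb G S) (by omega)).trans
    (Nat.mul_le_mul_left (m - 1)
      (show alpha G (Finset.univ \ cnb G S) ≤ A - S.card by omega))
  have e : (m - 1) * (A - S.card) + (m - 1) * S.card = (m - 1) * A := by
    rw [← Nat.mul_add, Nat.sub_add_cancel (by omega)]
  have hc := Finset.card_sdiff_of_subset (Finset.subset_univ (cnb G S))
  have hle := Finset.card_le_univ (cnb G S)
  have hb := h.big
  rw [Finset.card_univ] at hc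
  omega

end Vale.Agent.P048.Full.SClash
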